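import Vale.Agent.Lib.P371.Defs

open MeasureTheory Matrix
open scoped ENNReal

namespace Vale.Agent.P371

/-- The one-bound-state constant `L_γ^{(1)}`, by its definition as a supremum over scalar
potentials, with a single negative eigenvalue in the numerator (the supremum over the eigenvalue is
attained by the lowest one). -/
noncomputable def LTone (γ : ℝ) : ℝ≥0∞ :=
  ⨆ (W : ℝ → Matrix (Fin 1) (Fin 1) ℂ) (_ : IsPotential (γ + 1 / 2) W)
    (_ : potInt (γ + 1 / 2) W ≠ 0) (lam : Fin 1 → ℝ) (_ : IsNegEigenSystem W 1 lam),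
    ENNReal.ofReal (|lam 0| ^ γ) / potInt (γ + 1 / 2) W

end Vale.Agent.P371
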