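import Mathlib

open MeasureTheory Matrix
open scoped ENNReal ComplexOrder ComplexConjugate

namespace Vale.Agent.P371

/-- `f` is (the continuous representative of) a function in the Sobolev space `H^1(ℝ; ℂ^m)`,
with weak derivative `f'`: both are square integrable and `f` is a primitive of `f'`. -/
structure IsH1 {m : ℕ} (f f' : ℝ → EuclideanSpace ℂ (Fin m)) : Prop where
  memLp : MemLp f 2 volume
  memLp_deriv : MemLp f' 2 volume
  ftc : ∀ a b : ℝ, f b - f a = ∫ x in a..b, f' x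

/-- The matrix `M` applied to the vector `v` of `ℂ^m`. -/
noncomputable def app {m : ℕ} (M : Matrix (Fin m) (Fin m) ℂ) (v : EuclideanSpace ℂ (Fin m)) :
    EuclideanSpace ℂ (Fin m) :=
  WithLp.toLp 2 (M *ᵥ v.ofLp)

/-- `tr (M ^ p)` for a Hermitian matrix `M`: the sum of the `p`-th powers of its eigenvalues. -/
noncomputable def trPow {m : ℕ} (p : ℝ) (M : Matrix (Fin m) (Fin m) ℂ) : ℝ :=
  open Classical in
  if h : M.IsHermitian then ∑ i, (h.eigenvalues i) ^ p else 0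

/-- The integral of `tr (W(x) ^ p)` over the line. -/
noncomputable def potInt {m : ℕ} (p : ℝ) (W : ℝ → Matrix (Fin m) (Fin m) ℂ) : ℝ≥0∞ :=
  ∫⁻ x, ENNReal.ofReal (trPow p (W x))

/-- `W` is a potential with exponent `p`: measurable, Hermitian positive semidefinite at every
point, with finite `∫ tr (W ^ p)`. -/
structure IsPotential {m : ℕ} (p : ℝ) (W : ℝ → Matrix (Fin m) (Fin m) ℂ) : Prop where
  measurable : ∀ i j, Measurable fun x => W x i j
  posSemidef : ∀ x, (W x).PosSemidef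
  finite : potInt p W ≠ ∞

/-- `f` (with derivative `f'`) satisfies `-f'' - W f = lam f` in the sense of the quadratic form
`∫ ‖ψ'‖² - ∫ ⟨ψ, W ψ⟩` on `H^1(ℝ; ℂ^m)`. -/
def IsEigenfunction {m : ℕ} (W : ℝ → Matrix (Fin m) (Fin m) ℂ) (lam : ℝ)
    (f f' : ℝ → EuclideanSpace ℂ (Fin m)) : Prop :=
  IsH1 f f' ∧ ∀ g g' : ℝ → EuclideanSpace ℂ (Fin m), IsH1 g g' →
    (∫ x, inner ℂ (g' x) (f' x)) - (∫ x, inner ℂ (g x) (app (W x) (f x)))
      = (lam : ℂ) * ∫ x, inner ℂ (g x) (f x)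

/-- `lam 0, …, lam (n-1)` are negative eigenvalues of `-d²/dx² - W`, repeated at most according to
multiplicity: they belong to an orthonormal family of eigenfunctions. -/
def IsNegEigenSystem {m : ℕ} (W : ℝ → Matrix (Fin m) (Fin m) ℂ) (n : ℕ) (lam : Fin n → ℝ) : Prop :=
  (∀ j, lam j < 0) ∧ ∃ f f' : Fin n → ℝ → EuclideanSpace ℂ (Fin m),
    (∀ j, IsEigenfunction W (lam j) (f j) (f' j)) ∧
    ∀ i j, (∫ x, inner ℂ (f i x) (f j x)) = if i = j then (1 : ℂ) else 0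

/-- `Tr (H_W)_-^γ`: the sum of `|λ|^γ` over the negative eigenvalues of `-d²/dx² - W`,
with multiplicity. -/
noncomputable def negMoment {m : ℕ} (γ : ℝ) (W : ℝ → Matrix (Fin m) (Fin m) ℂ) : ℝ≥0∞ :=
  ⨆ (n : ℕ) (lam : Fin n → ℝ) (_ : IsNegEigenSystem W n lam), ∑ j, ENNReal.ofReal (|lam j| ^ γ)

/-- The constant `L_γ(m)`. -/
noncomputable def LT (γ : ℝ) (m : ℕ) : ℝ≥0∞ :=
  ⨆ (W : ℝ → Matrix (Fin m) (Fin m) ℂ) (_ : IsPotential (γ + 1 / 2) W)
    (_ : potInt (γ + 1 / 2) W ≠ 0), negMoment γ W / potInt (γ + 1 / 2) W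

/-- The semiclassical constant. -/
noncomputable def Lcl (γ : ℝ) : ℝ :=
  Real.Gamma (γ + 1) / (2 * √Real.pi * Real.Gamma (γ + 3 / 2))

/-- The one-bound-state constant. -/
noncomputable def Lone (γ : ℝ) : ℝ :=
  2 * ((γ - 1 / 2) / (γ + 1 / 2)) ^ (γ - 1 / 2) * Lcl γ

end Vale.Agent.P371
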