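import Vale.Agent.Lib.P371.Defs

/-! Elementary facts on `H^1(ℝ; ℂ^m)`: continuity and boundedness. -/

open MeasureTheory

namespace Vale.Agent.P371

variable {m : ℕ} {f f' : ℝ → EuclideanSpace ℂ (Fin m)}

theorem IsH1.locallyIntegrable_deriv (hf : IsH1 f f') : LocallyIntegrable f' volume :=
  hf.memLp_deriv.locallyIntegrable (by norm_num)

theorem IsH1.intervalIntegrable_deriv (hf : IsH1 f f') (a b : ℝ) :
    IntervalIntegrable f' volume a b :=
  (hf.locallyIntegrable_deriv.integrableOn_isCompact isCompact_uIcc).intervalIntegrable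

theorem IsH1.eq_add (hf : IsH1 f f') (a b : ℝ) : f b = f a + ∫ x in a..b, f' x := by
  rw [← hf.ftc a b]
  abel

theorem IsH1.continuous (hf : IsH1 f f') : Continuous f := by
  have h1 : f = fun b => f 0 + ∫ x in (0 : ℝ)..b, f' x := funext fun b => hf.eq_add 0 b
  rw [h1]
  exact continuous_const.add
    (intervalIntegral.continuous_primitive (fun a b => hf.intervalIntegrable_deriv a b) 0)

theorem IsH1.integrable_sq (hf : IsH1 f f') : Integrable (fun x => ‖f x‖ ^ 2) volume :=
  hf.memLp.integrable_norm_pow (by norm_num)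

theorem IsH1.integrable_deriv_sq (hf : IsH1 f f') : Integrable (fun x => ‖f' x‖ ^ 2) volume :=
  hf.memLp_deriv.integrable_norm_pow (by norm_num)

theorem norm_le_half (t : ℝ) : t ≤ (1 + t ^ 2) / 2 := by nlinarith [sq_nonneg (t - 1)]

/-- functions in `H^1` are bounded. -/
theorem IsH1.bounded (hf : IsH1 f f') :
    ∀ x, ‖f x‖ ≤ (1 + ∫ y, ‖f y‖ ^ 2) / 2 + (1 + ∫ y, ‖f' y‖ ^ 2) / 2 := by
  intro x
  have hJ : ∀ y ∈ Set.Icc x (x + 1), ‖f x‖ ≤ ‖f y‖ + (1 + ∫ y, ‖f' y‖ ^ 2) / 2 := by
    intro y hy
    have h1 : f x = f y - ∫ t in x..y, f' t := by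
      rw [← hf.ftc x y]; abel
    rw [h1]
    refine (norm_sub_le _ _).trans (add_le_add le_rfl ?_)
    have h2 : ‖∫ t in x..y, f' t‖ ≤ ∫ t in x..y, ‖f' t‖ :=
      intervalIntegral.norm_integral_le_integral_norm hy.1
    refine h2.trans ?_
    have h3 : ∫ t in x..y, ‖f' t‖ ≤ ∫ t in x..y, (1 + ‖f' t‖ ^ 2) / 2 := by
      apply intervalIntegral.integral_mono_on hy.1
      · exact (hf.intervalIntegrable_deriv x y).norm
      · exact ((intervalIntegrable_const).add
          (hf.integrable_deriv_sq.intervalIntegrable)).div_const 2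
      · intro t _
        exact norm_le_half _
    refine h3.trans ?_
    rw [intervalIntegral.integral_div, intervalIntegral.integral_add intervalIntegrable_const
      hf.integrable_deriv_sq.intervalIntegrable]
    have h4 : ∫ t in x..y, ‖f' t‖ ^ 2 ≤ ∫ t, ‖f' t‖ ^ 2 := by
      rw [intervalIntegral.integral_of_le hy.1]
      exact setIntegral_le_integral hf.integrable_deriv_sq
        (Filter.Eventually.of_forall fun t => by positivity)
    have h5 : ∫ t in x..y, (1 : ℝ) ≤ 1 := by
      rw [intervalIntegral.integral_const, smul_eq_mul, mul_one]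
      linarith [hy.2]
    linarith
  have h6 : ‖f x‖ = ∫ y in x..(x + 1), ‖f x‖ := by
    rw [intervalIntegral.integral_const]
    simp
  have h7 : ∫ y in x..(x + 1), ‖f x‖ ≤ ∫ y in x..(x + 1),
      ((1 + ‖f y‖ ^ 2) / 2 + (1 + ∫ y, ‖f' y‖ ^ 2) / 2) := by
    apply intervalIntegral.integral_mono_on (by linarith)
    · exact intervalIntegrable_const
    · exact (((intervalIntegrable_const).add
          (hf.integrable_sq.intervalIntegrable)).div_const 2).add intervalIntegrable_const
    · intro t ht
      exact (hJ t ht).trans (add_le_add (norm_le_half _) le_rfl)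
  have h8 : ∫ y in x..(x + 1), ‖f y‖ ^ 2 ≤ ∫ y, ‖f y‖ ^ 2 := by
    rw [intervalIntegral.integral_of_le (by linarith)]
    exact setIntegral_le_integral hf.integrable_sq
      (Filter.Eventually.of_forall fun t => by positivity)
  rw [h6]
  refine h7.trans ?_
  rw [intervalIntegral.integral_add (((intervalIntegrable_const).add
          (hf.integrable_sq.intervalIntegrable)).div_const 2) intervalIntegrable_const,
    intervalIntegral.integral_div, intervalIntegral.integral_add intervalIntegrable_const
      hf.integrable_sq.intervalIntegrable, intervalIntegral.integral_const,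
    intervalIntegral.integral_const]
  simp only [add_sub_cancel_left, one_smul]
  linarith

end Vale.Agent.P371
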