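import Vale.Agent.Lib.P371.Defs

/-! Pointwise trace inequalities and measurability of spectral functions. -/

open MeasureTheory Matrix
open scoped ENNReal ComplexOrder ComplexConjugate

namespace Vale.Agent.P371

variable {m N : ℕ}

/-- `∑ φ (eigenvalue)` for a Hermitian matrix. -/
noncomputable def trF (φ : ℝ → ℝ) (M : Matrix (Fin m) (Fin m) ℂ) : ℝ :=
  open Classical in
  if h : M.IsHermitian then ∑ i, φ (h.eigenvalues i) else 0

theorem trPow_eq_trF (p : ℝ) (M : Matrix (Fin m) (Fin m) ℂ) :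
    trPow p M = trF (fun t => t ^ p) M := rfl

theorem trF_of {φ : ℝ → ℝ} {M : Matrix (Fin m) (Fin m) ℂ} (h : M.IsHermitian) :
    trF φ M = ∑ i, φ (h.eigenvalues i) := by
  unfold trF
  rw [dif_pos h]

theorem app_eq (M : Matrix (Fin m) (Fin m) ℂ) (v : EuclideanSpace ℂ (Fin m)) :
    app M v = M.toEuclideanLin v := rfl

theorem inner_app_symm {M : Matrix (Fin m) (Fin m) ℂ} (h : M.IsHermitian)
    (u v : EuclideanSpace ℂ (Fin m)) : inner ℂ u (app M v) = inner ℂ (app M u) v := by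
  rw [app_eq, app_eq]
  exact ((isSymmetric_toEuclideanLin_iff.mpr h) u v).symm

theorem app_eigenvector {M : Matrix (Fin m) (Fin m) ℂ} (h : M.IsHermitian) (i : Fin m) :
    app M (h.eigenvectorBasis i) = ((h.eigenvalues i : ℝ) : ℂ) • h.eigenvectorBasis i := by
  unfold app
  rw [h.mulVec_eigenvectorBasis i]
  rfl

theorem inner_app_eq {M : Matrix (Fin m) (Fin m) ℂ} (h : M.IsHermitian)
    (v : EuclideanSpace ℂ (Fin m)) :
    inner ℂ v (app M v)
      = ((∑ i, h.eigenvalues i * ‖inner ℂ (h.eigenvectorBasis i) v‖ ^ 2 : ℝ) : ℂ) := by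
  rw [← h.eigenvectorBasis.sum_inner_mul_inner v (app M v)]
  push_cast
  refine Finset.sum_congr rfl fun i _ => ?_
  rw [inner_app_symm h, app_eigenvector, inner_smul_left, Complex.conj_ofReal,
    ← inner_conj_symm v (h.eigenvectorBasis i)]
  have := Complex.conj_mul' (inner ℂ (h.eigenvectorBasis i) v)
  rw [← this]
  ring

section abstract
variable {E : Type*} [NormedAddCommGroup E] [InnerProductSpace ℂ E]

/-- the frame operator of a finite family. -/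
noncomputable def Rop (f : Fin N → E) (v : E) : E := ∑ k, (inner ℂ (f k) v) • f k

theorem inner_Rop (f : Fin N → E) (u v : E) :
    inner ℂ u (Rop f v) = ∑ k, inner ℂ (f k) v * inner ℂ u (f k) := by
  unfold Rop
  rw [inner_sum]
  simp [inner_smul_right]

theorem inner_Rop_symm (f : Fin N → E) (u v : E) :
    inner ℂ u (Rop f v) = conj (inner ℂ v (Rop f u)) := by
  rw [inner_Rop, inner_Rop, map_sum]
  refine Finset.sum_congr rfl fun k _ => ?_
  rw [map_mul, inner_conj_symm, inner_conj_symm, mul_comm]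

theorem norm_sum_mul_sq_le (a b : Fin N → ℂ) :
    ‖∑ k, a k * b k‖ ^ 2 ≤ (∑ k, ‖a k‖ ^ 2) * ∑ k, ‖b k‖ ^ 2 := by
  have h1 : ‖∑ k, a k * b k‖ ≤ ∑ k, ‖a k‖ * ‖b k‖ := by
    refine (norm_sum_le _ _).trans (Finset.sum_le_sum fun k _ => ?_)
    rw [norm_mul]
  calc ‖∑ k, a k * b k‖ ^ 2 ≤ (∑ k, ‖a k‖ * ‖b k‖) ^ 2 := by gcongr
    _ ≤ _ := Finset.sum_mul_sq_le_sq_mul_sq _ _ _

theorem cube_le (f : Fin N → E) (u : E) (hu : ‖u‖ = 1) :
    (∑ k, ‖inner ℂ (f k) u‖ ^ 2) ^ 3 ≤ ∑ k, ‖inner ℂ (f k) (Rop f u)‖ ^ 2 := by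
  set r := ∑ k, ‖inner ℂ (f k) u‖ ^ 2 with hr
  set T := ∑ k, ‖inner ℂ (f k) (Rop f u)‖ ^ 2 with hT
  have hr0 : 0 ≤ r := Finset.sum_nonneg fun k _ => by positivity
  have hT0 : 0 ≤ T := Finset.sum_nonneg fun k _ => by positivity
  have h1 : inner ℂ u (Rop f u) = (r : ℂ) := by
    rw [inner_Rop, hr]
    push_cast
    refine Finset.sum_congr rfl fun k _ => ?_
    rw [← inner_conj_symm u (f k), mul_comm, Complex.conj_mul']
  have h2 : r ≤ ‖Rop f u‖ := by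
    have h3 := norm_inner_le_norm (𝕜 := ℂ) u (Rop f u)
    rw [h1, hu, one_mul, Complex.norm_real, Real.norm_eq_abs, abs_of_nonneg hr0] at h3
    exact h3
  have h4 : ‖Rop f u‖ ^ 2 = ‖∑ k, inner ℂ (f k) u * inner ℂ (Rop f u) (f k)‖ := by
    rw [← inner_Rop, inner_self_eq_norm_sq_to_K, norm_pow]
    simp
  have h5 : (‖Rop f u‖ ^ 2) ^ 2 ≤ r * T := by
    rw [h4]
    refine (norm_sum_mul_sq_le _ _).trans_eq ?_
    congr 1
    refine Finset.sum_congr rfl fun k _ => ?_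
    rw [norm_inner_symm]
  have h6 : r ^ 2 ≤ ‖Rop f u‖ ^ 2 := by gcongr
  have h7 : (r ^ 2) ^ 2 ≤ r * T := (by gcongr : (r ^ 2) ^ 2 ≤ (‖Rop f u‖ ^ 2) ^ 2).trans h5
  rcases hr0.eq_or_lt with h8 | h8
  · rw [← h8]
    simpa using hT0
  · have h9 : r * r ^ 3 ≤ r * T := by nlinarith
    exact le_of_mul_le_mul_left h9 h8

/-- `tr G ^ 3` for the Gram matrix `G`. -/
theorem trace_gram_cube (f : Fin N → E) :
    (((∑ j, ‖Rop f (f j)‖ ^ 2 : ℝ)) : ℂ)
      = trace ((Matrix.of fun i j => inner ℂ (f i) (f j) : Matrix (Fin N) (Fin N) ℂ) ^ 3) := by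
  have h1 : ∀ j, ((‖Rop f (f j)‖ ^ 2 : ℝ) : ℂ)
      = ∑ k, inner ℂ (f k) (f j) * ∑ l, inner ℂ (f j) (f l) * inner ℂ (f l) (f k) := by
    intro j
    have h2 : inner ℂ (Rop f (f j)) (Rop f (f j)) = ((‖Rop f (f j)‖ ^ 2 : ℝ) : ℂ) := by
      rw [inner_self_eq_norm_sq_to_K]
      norm_cast
    rw [← h2, inner_Rop]
    refine Finset.sum_congr rfl fun k _ => ?_
    congr 1
    rw [← inner_conj_symm, inner_Rop, map_sum]
    refine Finset.sum_congr rfl fun l _ => ?_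
    rw [map_mul, inner_conj_symm, inner_conj_symm]
  rw [Complex.ofReal_sum, Finset.sum_congr rfl fun j _ => h1 j]
  simp only [trace, diag, pow_succ, pow_zero, one_mul, mul_apply, of_apply]
  refine Finset.sum_congr rfl fun j _ => ?_
  refine Finset.sum_congr rfl fun k _ => ?_
  rw [mul_comm]

theorem sum_cube_le {ι : Type*} [Fintype ι] (b : OrthonormalBasis ι ℂ E) (f : Fin N → E) :
    ∑ i, (∑ j, ‖inner ℂ (b i) (f j)‖ ^ 2) ^ 3
      ≤ (trace ((Matrix.of fun i j => inner ℂ (f i) (f j) :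
          Matrix (Fin N) (Fin N) ℂ) ^ 3)).re := by
  rw [← trace_gram_cube, Complex.ofReal_re]
  calc ∑ i, (∑ j, ‖inner ℂ (b i) (f j)‖ ^ 2) ^ 3
      = ∑ i, (∑ j, ‖inner ℂ (f j) (b i)‖ ^ 2) ^ 3 := by
        refine Finset.sum_congr rfl fun i _ => ?_
        congr 1
        refine Finset.sum_congr rfl fun j _ => ?_
        rw [norm_inner_symm]
    _ ≤ ∑ i, ∑ k, ‖inner ℂ (f k) (Rop f (b i))‖ ^ 2 :=
        Finset.sum_le_sum fun i _ => cube_le f (b i) (b.orthonormal.1 i)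
    _ = ∑ k, ∑ i, ‖inner ℂ (b i) (Rop f (f k))‖ ^ 2 := by
        rw [Finset.sum_comm]
        refine Finset.sum_congr rfl fun k _ => Finset.sum_congr rfl fun i _ => ?_
        rw [inner_Rop_symm, Complex.norm_conj]
    _ = ∑ k, ‖Rop f (f k)‖ ^ 2 := by
        refine Finset.sum_congr rfl fun k _ => ?_
        exact b.sum_sq_norm_inner_right _

end abstract

/-- scalar Young inequality with exponents `3/2` and `3`. -/
theorem young_scalar {a b s : ℝ} (ha : 0 ≤ a) (hb : 0 ≤ b) (hs : 0 < s) :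
    a * b ≤ 2 / 3 * s * a ^ (3 / 2 : ℝ) + 1 / 3 * (s⁻¹) ^ 2 * b ^ 3 := by
  obtain ⟨α, hα, rfl⟩ : ∃ α : ℝ, 0 ≤ α ∧ a = α ^ 2 := ⟨√a, Real.sqrt_nonneg a, (Real.sq_sqrt ha).symm⟩
  obtain ⟨β, hβ, rfl⟩ : ∃ β : ℝ, 0 ≤ β ∧ b = s * β := ⟨b / s, by positivity, by field_simp⟩
  have h1 : (α ^ 2) ^ (3 / 2 : ℝ) = α ^ 3 := by
    rw [← Real.rpow_natCast α 2, ← Real.rpow_mul hα, ← Real.rpow_natCast α 3]
    norm_num
  rw [h1]
  have h2 : (s⁻¹) ^ 2 * (s * β) ^ 3 = s * β ^ 3 := by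
    field_simp
  have h3 : 0 ≤ s * ((α - β) ^ 2 * (2 * α + β)) := by positivity
  have h4 : 1 / 3 * (s⁻¹) ^ 2 * (s * β) ^ 3 = 1 / 3 * (s * β ^ 3) := by
    rw [← h2]; ring
  rw [h4]
  nlinarith [h3]

/-- the pointwise trace inequality. -/
theorem pointwise_le {M : Matrix (Fin m) (Fin m) ℂ} (hM : M.IsHermitian)
    (f : Fin N → EuclideanSpace ℂ (Fin m)) (τ : ℝ) {s : ℝ} (hs : 0 < s) :
    ∑ j, ((inner ℂ (f j) (app M (f j))).re - τ * ‖f j‖ ^ 2)
      ≤ 2 / 3 * s * trF (fun t => (max (t - τ) 0) ^ (3 / 2 : ℝ)) M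
        + 1 / 3 * (s⁻¹) ^ 2 * (trace ((Matrix.of fun i j => inner ℂ (f i) (f j) :
          Matrix (Fin N) (Fin N) ℂ) ^ 3)).re := by
  set b := hM.eigenvectorBasis with hb
  have h1 : ∀ j, (inner ℂ (f j) (app M (f j))).re - τ * ‖f j‖ ^ 2
      = ∑ i, (hM.eigenvalues i - τ) * ‖inner ℂ (b i) (f j)‖ ^ 2 := by
    intro j
    rw [inner_app_eq hM, Complex.ofReal_re, ← b.sum_sq_norm_inner_right (f j), Finset.mul_sum,
      ← Finset.sum_sub_distrib]
    refine Finset.sum_congr rfl fun i _ => ?_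
    ring
  rw [Finset.sum_congr rfl fun j _ => h1 j, Finset.sum_comm, trF_of hM, Finset.mul_sum]
  have h2 : ∀ i, ∑ j, (hM.eigenvalues i - τ) * ‖inner ℂ (b i) (f j)‖ ^ 2
      ≤ 2 / 3 * s * (max (hM.eigenvalues i - τ) 0) ^ (3 / 2 : ℝ)
        + 1 / 3 * (s⁻¹) ^ 2 * (∑ j, ‖inner ℂ (b i) (f j)‖ ^ 2) ^ 3 := by
    intro i
    have h3 : 0 ≤ ∑ j, ‖inner ℂ (b i) (f j)‖ ^ 2 := Finset.sum_nonneg fun j _ => by positivity
    rw [← Finset.mul_sum]
    calc (hM.eigenvalues i - τ) * ∑ j, ‖inner ℂ (b i) (f j)‖ ^ 2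
        ≤ (max (hM.eigenvalues i - τ) 0) * ∑ j, ‖inner ℂ (b i) (f j)‖ ^ 2 :=
          mul_le_mul_of_nonneg_right (le_max_left _ _) h3
      _ ≤ _ := young_scalar (le_max_right _ _) h3 hs
  refine (Finset.sum_le_sum fun i _ => h2 i).trans ?_
  rw [Finset.sum_add_distrib, ← Finset.mul_sum (f := fun i => (∑ j, ‖inner ℂ (b i) (f j)‖ ^ 2) ^ 3)]
  refine add_le_add le_rfl (mul_le_mul_of_nonneg_left (sum_cube_le b f) (by positivity))

end Vale.Agent.P371
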