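import Vale.Agent.Lib.P371.H1
import Vale.Agent.Lib.P371.Trace

/-! Measurability of spectral functions of a measurable Hermitian matrix field. -/

open MeasureTheory Matrix
open scoped ENNReal ComplexOrder ComplexConjugate Topology

namespace Vale.Agent.P371

variable {m N : ℕ}

theorem trace_pow_eq {M : Matrix (Fin m) (Fin m) ℂ} (h : M.IsHermitian) (k : ℕ) :
    trace (M ^ k) = ((∑ i, (h.eigenvalues i) ^ k : ℝ) : ℂ) := by
  have h1 := congrArg (fun X => trace (X ^ k)) h.spectral_theorem

  rw [h1, ← map_pow, Unitary.conjStarAlgAut_apply, trace_mul_comm, ← mul_assoc,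
    Unitary.coe_star_mul_self, one_mul, diagonal_pow, trace_diagonal]
  push_cast
  rfl

theorem measurable_pow_entry {Ω : Type*} [MeasurableSpace Ω]
    {M : Ω → Matrix (Fin m) (Fin m) ℂ} (hM : ∀ i j, Measurable fun ω => M ω i j) (k : ℕ) :
    ∀ i j, Measurable fun ω => (M ω ^ k) i j := by
  induction k with
  | zero =>
    intro i j
    simp only [pow_zero]
    exact measurable_const
  | succ k ih =>
    intro i j
    simp only [pow_succ, mul_apply]
    exact Finset.measurable_sum _ fun l _ => (ih i l).mul (hM l j)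

theorem measurable_trF_pow {Ω : Type*} [MeasurableSpace Ω]
    {M : Ω → Matrix (Fin m) (Fin m) ℂ} (hM : ∀ i j, Measurable fun ω => M ω i j)
    (hH : ∀ ω, (M ω).IsHermitian) (k : ℕ) : Measurable fun ω => trF (fun t => t ^ k) (M ω) := by
  have h1 : (fun ω => trF (fun t => t ^ k) (M ω)) = fun ω => (∑ i, (M ω ^ k) i i).re := by
    funext ω
    have h2 := trace_pow_eq (hH ω) k
    rw [trF_of (hH ω)]
    have h3 := congrArg Complex.re h2
    rw [Complex.ofReal_re] at h3
    exact h3.symm
  rw [h1]
  exact Complex.measurable_re.comp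
    (Finset.measurable_sum _ fun i _ => measurable_pow_entry hM k i i)

theorem measurable_trF_poly {Ω : Type*} [MeasurableSpace Ω]
    {M : Ω → Matrix (Fin m) (Fin m) ℂ} (hM : ∀ i j, Measurable fun ω => M ω i j)
    (hH : ∀ ω, (M ω).IsHermitian) (P : Polynomial ℝ) :
    Measurable fun ω => trF (fun t => P.eval t) (M ω) := by
  have h1 : (fun ω => trF (fun t => P.eval t) (M ω))
      = fun ω => ∑ k ∈ P.support, P.coeff k * trF (fun t => t ^ k) (M ω) := by
    funext ω
    rw [trF_of (hH ω)]
    simp only [trF_of (hH ω), Polynomial.eval_eq_sum, Polynomial.sum, Finset.mul_sum]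
    rw [Finset.sum_comm]
  rw [h1]
  exact Finset.measurable_sum _ fun k _ => (measurable_trF_pow hM hH k).const_mul _

/-- spectral functions are measurable. -/
theorem measurable_trF {Ω : Type*} [MeasurableSpace Ω]
    {M : Ω → Matrix (Fin m) (Fin m) ℂ} (hM : ∀ i j, Measurable fun ω => M ω i j)
    (hH : ∀ ω, (M ω).IsHermitian) {φ : ℝ → ℝ} (hφ : Continuous φ) :
    Measurable fun ω => trF φ (M ω) := by
  have h1 : ∀ n : ℕ, ∃ P : Polynomial ℝ, ∀ x ∈ Set.Icc (-(n : ℝ)) n,
      |P.eval x - φ x| < 1 / ((n : ℝ) + 1) := fun n =>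
    exists_polynomial_near_of_continuousOn _ _ _ hφ.continuousOn _ (by positivity)
  choose P hP using h1
  refine measurable_of_tendsto_metrizable (fun n => measurable_trF_poly hM hH (P n)) ?_
  rw [tendsto_pi_nhds]
  intro ω
  simp only [trF_of (hH ω)]
  refine tendsto_finsetSum _ fun i _ => ?_
  rw [Metric.tendsto_atTop]
  intro ε hε
  obtain ⟨n1, hn1⟩ := exists_nat_ge |(hH ω).eigenvalues i|
  obtain ⟨n2, hn2⟩ := exists_nat_one_div_lt hε
  refine ⟨max n1 n2, fun n hn => ?_⟩
  rw [Real.dist_eq]
  have h3 : (n1 : ℝ) ≤ n := by exact_mod_cast (le_max_left _ _).trans hn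
  have h4 : (n2 : ℝ) ≤ n := by exact_mod_cast (le_max_right _ _).trans hn
  have h5 := hP n ((hH ω).eigenvalues i) (by
    rw [Set.mem_Icc, ← abs_le]
    linarith)
  refine h5.trans_le (le_trans ?_ hn2.le)
  apply one_div_le_one_div_of_le (by positivity)
  linarith

end Vale.Agent.P371
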