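import Mathlib
import Vale.Agent.Lib.P371.Defs

open MeasureTheory Matrix Filter Topology
open scoped ENNReal ComplexOrder ComplexConjugate

namespace Vale.Agent.P371

/-! ### The integral of a negative power of the hyperbolic cosine -/

theorem sigmoid_mul_one_sub (x : ℝ) :
    Real.sigmoid (2 * x) * (1 - Real.sigmoid (2 * x)) = (4 * (Real.cosh x) ^ 2)⁻¹ := by
  have h1 : Real.exp x * Real.exp (-x) = 1 := by rw [← Real.exp_add]; simp
  have h2 : Real.exp (-(2 * x)) = Real.exp (-x) * Real.exp (-x) := by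
    rw [← Real.exp_add]; congr 1; ring
  have hx := Real.exp_pos x
  have hx' := Real.exp_pos (-x)
  rw [Real.sigmoid_def, Real.cosh_eq, h2]
  have h3 : (1 + Real.exp (-x) * Real.exp (-x)) = Real.exp (-x) * (Real.exp x + Real.exp (-x)) := by
    rw [mul_add, mul_comm (Real.exp (-x)) (Real.exp x), h1]
  rw [h3]
  have h4 : 0 < Real.exp x + Real.exp (-x) := by positivity
  field_simp
  nlinarith [h1]

theorem lintegral_cosh_rpow {a : ℝ} (ha : 0 < a) :
    ∫⁻ x : ℝ, ENNReal.ofReal ((Real.cosh x) ^ (-(2 * a))) =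
      ENNReal.ofReal (√Real.pi * Real.Gamma a / Real.Gamma (a + 1 / 2)) := by
  have h1 := ProbabilityTheory.lintegral_betaPDF_eq_one ha ha
  rw [ProbabilityTheory.lintegral_betaPDF] at h1
  set s : ℝ → ℝ := fun x => Real.sigmoid (2 * x) with hs
  have himg : s '' Set.univ = Set.Ioo 0 1 := by
    rw [Set.image_univ, ← Real.range_sigmoid]
    ext y; constructor
    · rintro ⟨x, rfl⟩; exact ⟨2 * x, rfl⟩
    · rintro ⟨x, rfl⟩
      refine ⟨x / 2, ?_⟩
      change Real.sigmoid (2 * (x / 2)) = Real.sigmoid x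
      congr 1; ring
  have hder : ∀ x ∈ (Set.univ : Set ℝ),
      HasDerivWithinAt s (2 * (s x * (1 - s x))) Set.univ x := by
    intro x _
    have h : HasDerivAt s (Real.sigmoid (2 * x) * (1 - Real.sigmoid (2 * x)) * (2 * 1)) x :=
      (Real.hasDerivAt_sigmoid (2 * x)).comp x ((hasDerivAt_id x).const_mul 2)
    refine (h.congr_deriv ?_).hasDerivWithinAt
    change _ = 2 * (Real.sigmoid (2 * x) * (1 - Real.sigmoid (2 * x)))
    ring
  have hinj : Set.InjOn s Set.univ := by
    intro x _ y _ h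
    have := Real.sigmoid_injective h
    simpa using this
  rw [← himg, lintegral_image_eq_lintegral_abs_deriv_mul MeasurableSet.univ hder hinj] at h1
  have hbeta : 0 < ProbabilityTheory.beta a a := ProbabilityTheory.beta_pos ha ha
  have hpt : ∀ x : ℝ, ENNReal.ofReal |2 * (s x * (1 - s x))| *
      ENNReal.ofReal (1 / ProbabilityTheory.beta a a * s x ^ (a - 1) * (1 - s x) ^ (a - 1)) =
      ENNReal.ofReal (2 / ProbabilityTheory.beta a a * (4 : ℝ) ^ (-a)) *
        ENNReal.ofReal ((Real.cosh x) ^ (-(2 * a))) := by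
    intro x
    have hs0 : 0 < s x := Real.sigmoid_pos _
    have hs1 : 0 < 1 - s x := by have := Real.sigmoid_lt_one (2 * x); simp only [hs]; linarith
    have hc : 0 < Real.cosh x := Real.cosh_pos x
    have hprod : s x * (1 - s x) = (4 * (Real.cosh x) ^ 2)⁻¹ := sigmoid_mul_one_sub x
    rw [← ENNReal.ofReal_mul (by positivity), ← ENNReal.ofReal_mul (by positivity)]
    congr 1
    rw [abs_of_pos (by positivity), mul_assoc (1 / ProbabilityTheory.beta a a),
      ← Real.mul_rpow hs0.le hs1.le, hprod]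
    have h5 : (4 * Real.cosh x ^ 2)⁻¹ ^ (a - 1) = (4 * Real.cosh x ^ 2)⁻¹ ^ a * (4 * Real.cosh x ^ 2) := by
      rw [Real.rpow_sub_one (by positivity)]
      field_simp
    have h6 : (4 * Real.cosh x ^ 2)⁻¹ ^ a = (4 : ℝ) ^ (-a) * (Real.cosh x) ^ (-(2 * a)) := by
      rw [Real.inv_rpow (by positivity), ← Real.rpow_neg (by positivity),
        Real.mul_rpow (by norm_num) (by positivity), ← Real.rpow_natCast, ← Real.rpow_mul hc.le]
      congr 2
      push_cast; ring
    rw [h5, h6]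
    field_simp
  simp_rw [hpt] at h1
  rw [lintegral_const_mul' _ _ ENNReal.ofReal_ne_top, Measure.restrict_univ] at h1
  set K : ℝ := 2 / ProbabilityTheory.beta a a * (4 : ℝ) ^ (-a) with hK
  have hKpos : 0 < K := by positivity
  have h2 : ∫⁻ x : ℝ, ENNReal.ofReal ((Real.cosh x) ^ (-(2 * a))) = (ENNReal.ofReal K)⁻¹ := by
    rw [mul_comm] at h1
    exact ENNReal.eq_inv_of_mul_eq_one_left h1
  rw [h2, ← ENNReal.ofReal_inv_of_pos hKpos]
  congr 1
  have hdup := Real.Gamma_mul_Gamma_add_half a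
  have hG1 := Real.Gamma_pos_of_pos ha
  have hG2 := Real.Gamma_pos_of_pos (show 0 < a + 1 / 2 by linarith)
  have hG3 := Real.Gamma_pos_of_pos (show 0 < 2 * a by linarith)
  have h4a : (4 : ℝ) ^ (-a) = (2 : ℝ) ^ (-(2 * a)) := by
    rw [show (4 : ℝ) = 2 ^ (2 : ℝ) by norm_num, ← Real.rpow_mul (by norm_num)]
    congr 1; ring
  have h2a : (2 : ℝ) ^ (1 - 2 * a) = 2 * (2 : ℝ) ^ (-(2 * a)) := by
    rw [show (1 - 2 * a) = 1 + (-(2 * a)) by ring, Real.rpow_add (by norm_num), Real.rpow_one]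
  have hp : 0 < (2 : ℝ) ^ (-(2 * a)) := by positivity
  have hpi : 0 < √Real.pi := by positivity
  rw [hK, ProbabilityTheory.beta, h4a, show a + a = 2 * a by ring]
  rw [h2a] at hdup
  have hG3' : Real.Gamma (2 * a) = Real.Gamma a * Real.Gamma (a + 1 / 2) /
      (2 * (2 : ℝ) ^ (-(2 * a)) * √Real.pi) := by
    rw [eq_div_iff (by positivity)]
    linarith
  rw [hG3']
  field_simp

theorem integrable_cosh_rpow {a : ℝ} (ha : 0 < a) :
    Integrable (fun x : ℝ => (Real.cosh x) ^ (-(2 * a))) := by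
  have hcont : Continuous (fun x : ℝ => (Real.cosh x) ^ (-(2 * a))) :=
    Real.continuous_cosh.rpow_const (fun x => Or.inl (Real.cosh_pos x).ne')
  refine ⟨hcont.aestronglyMeasurable, ?_⟩
  rw [hasFiniteIntegral_iff_ofReal (Eventually.of_forall fun x =>
    Real.rpow_nonneg (Real.cosh_pos x).le _), lintegral_cosh_rpow ha]
  exact ENNReal.ofReal_lt_top

theorem integral_cosh_rpow_pos {a : ℝ} (ha : 0 < a) :
    0 < ∫ x : ℝ, (Real.cosh x) ^ (-(2 * a)) := by
  rw [integral_pos_iff_support_of_nonneg (fun x => Real.rpow_nonneg (Real.cosh_pos x).le _)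
    (integrable_cosh_rpow ha)]
  have : Function.support (fun x : ℝ => (Real.cosh x) ^ (-(2 * a))) = Set.univ := by
    ext x
    simp only [Function.mem_support, Set.mem_univ, iff_true]
    exact (Real.rpow_pos_of_pos (Real.cosh_pos x) _).ne'
  rw [this]
  simp

/-! ### Integration by parts on the line -/

/-- Integration by parts on an interval for a primitive of a locally integrable function. -/
theorem ibp_interval {u u' φ φ' : ℝ → ℝ} (hu' : ∀ a b, IntervalIntegrable u' volume a b)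
    (hu : ∀ a b, u b - u a = ∫ x in a..b, u' x)
    (hφ : ∀ x, HasDerivAt φ (φ' x) x) (hφ' : Continuous φ') (a b : ℝ) :
    ∫ x in a..b, (u' x * φ x + u x * φ' x) = u b * φ b - u a * φ a := by
  have hueq : ∀ x, u x = u a + ∫ t in a..x, u' t := by
    intro x; have := hu a x; linarith
  have hac : AbsolutelyContinuousOnInterval u a b := by
    have h1 := (hu' a b).absolutelyContinuousOnInterval_intervalIntegral (c := a) (by simp)
    have h2 : AbsolutelyContinuousOnInterval (fun _ : ℝ => u a) a b :=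
      (contDiff_const.contDiffOn).absolutelyContinuousOnInterval
    have h3 := h2.add h1
    have h4 : ((fun _ : ℝ => u a) + fun x => ∫ t in a..x, u' t) = u :=
      funext fun x => (hueq x).symm
    rwa [h4] at h3
  have hφac : AbsolutelyContinuousOnInterval φ a b := by
    have hcd : ContDiff ℝ 1 φ := by
      rw [contDiff_one_iff_deriv]
      refine ⟨fun x => (hφ x).differentiableAt, ?_⟩
      have : deriv φ = φ' := funext fun x => (hφ x).deriv
      rw [this]; exact hφ'
    exact hcd.contDiffOn.absolutelyContinuousOnInterval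
  rw [← hac.integral_deriv_mul_eq_sub hφac]
  apply intervalIntegral.integral_congr_ae
  filter_upwards [(hu' a b).ae_hasDerivAt_integral] with x hx hx2
  have hx3 : x ∈ Set.uIcc a b := Set.uIoc_subset_uIcc hx2
  have hd : HasDerivAt u (u' x) x := by
    have h1 := (hx hx3 a (by simp)).const_add (u a)
    have h2 : (fun x => u a + ∫ t in a..x, u' t) = u := by
      ext y; exact (hueq y).symm
    rwa [h2] at h1
  rw [hd.deriv, (hφ x).deriv]

theorem ibp_line {u u' φ φ' : ℝ → ℝ} (hu2 : MemLp u 2 volume) (hu'2 : MemLp u' 2 volume)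
    (hu : ∀ a b, u b - u a = ∫ x in a..b, u' x)
    (hφ : ∀ x, HasDerivAt φ (φ' x) x) (hφc : Continuous φ')
    (hφ2 : MemLp φ 2 volume) (hφ'2 : MemLp φ' 2 volume) :
    ∫ x, (u' x * φ x + u x * φ' x) = 0 := by
  have hloc : ∀ a b, IntervalIntegrable u' volume a b := by
    intro a b
    have h1 : LocallyIntegrable u' volume := hu'2.locallyIntegrable (by norm_num)
    exact (h1.integrableOn_isCompact isCompact_uIcc).intervalIntegrable
  have hI1 : Integrable (fun x => u' x * φ x) := hu'2.integrable_mul hφ2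
  have hI2 : Integrable (fun x => u x * φ' x) := hu2.integrable_mul hφ'2
  have hG : Integrable (fun x => u' x * φ x + u x * φ' x) := hI1.add hI2
  have hF : Integrable (fun x => u x * φ x) := hu2.integrable_mul hφ2
  have key := ibp_interval hloc hu hφ hφc
  have htop : Tendsto (fun x => u x * φ x) atTop
      (𝓝 (u 0 * φ 0 + ∫ x in Set.Ioi 0, (u' x * φ x + u x * φ' x))) := by
    have h1 := intervalIntegral_tendsto_integral_Ioi 0 hG.integrableOn tendsto_id
    have h2 := h1.const_add (u 0 * φ 0)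
    refine h2.congr fun x => ?_
    simp only [id]
    rw [key 0 x]; ring
  have hbot : Tendsto (fun x => u x * φ x) atBot
      (𝓝 (u 0 * φ 0 - ∫ x in Set.Iic 0, (u' x * φ x + u x * φ' x))) := by
    have h1 := intervalIntegral_tendsto_integral_Iic 0 hG.integrableOn tendsto_id
    have h2 := h1.const_sub (u 0 * φ 0)
    refine h2.congr fun x => ?_
    simp only [id]
    rw [key x 0]; ring
  have e1 := IntegrableAtFilter.eq_zero_of_tendsto (l := atTop) (μ := volume)
    (f := fun x => u x * φ x) ⟨Set.univ, Filter.univ_mem, hF.integrableOn⟩ (by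
      intro s hs
      obtain ⟨a, ha⟩ := mem_atTop_sets.mp hs
      rw [eq_top_iff, ← Real.volume_Ici (a := a)]
      exact measure_mono fun x hx => ha x hx) htop
  have e2 := IntegrableAtFilter.eq_zero_of_tendsto (l := atBot) (μ := volume)
    (f := fun x => u x * φ x) ⟨Set.univ, Filter.univ_mem, hF.integrableOn⟩ (by
      intro s hs
      obtain ⟨a, ha⟩ := mem_atBot_sets.mp hs
      rw [eq_top_iff, ← Real.volume_Iic (a := a)]
      exact measure_mono fun x hx => ha x hx) hbot
  have e3 := intervalIntegral.integral_Iic_add_Ioi (b := 0) hG.integrableOn hG.integrableOn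
  linarith

theorem ibp_line_complex {u u' : ℝ → ℂ} {φ φ' : ℝ → ℝ}
    (hu2 : MemLp u 2 volume) (hu'2 : MemLp u' 2 volume)
    (hu : ∀ a b, u b - u a = ∫ x in a..b, u' x)
    (hφ : ∀ x, HasDerivAt φ (φ' x) x) (hφc : Continuous φ')
    (hφ2 : MemLp φ 2 volume) (hφ'2 : MemLp φ' 2 volume) :
    ∫ x, (u' x * (φ x : ℂ) + u x * (φ' x : ℂ)) = 0 := by
  have hφ2c : MemLp (fun x => (φ x : ℂ)) 2 volume := hφ2.ofReal
  have hφ'2c : MemLp (fun x => (φ' x : ℂ)) 2 volume := hφ'2.ofReal
  have hloc : ∀ a b, IntervalIntegrable u' volume a b := by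
    intro a b
    have h1 : LocallyIntegrable u' volume := hu'2.locallyIntegrable (by norm_num)
    exact (h1.integrableOn_isCompact isCompact_uIcc).intervalIntegrable
  have hI1 : Integrable (fun x => u' x * (φ x : ℂ)) := hu'2.integrable_mul hφ2c
  have hI2 : Integrable (fun x => u x * (φ' x : ℂ)) := hu2.integrable_mul hφ'2c
  have hG := hI1.add hI2
  have hre : ∫ x, ((u' x).re * φ x + (u x).re * φ' x) = 0 := by
    refine ibp_line hu2.re hu'2.re ?_ hφ hφc hφ2 hφ'2
    intro a b
    have h := congrArg Complex.re (hu a b)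
    rw [Complex.sub_re] at h
    change (u b).re - (u a).re = _
    rw [h]
    exact (Complex.reCLM.intervalIntegral_comp_comm (hloc a b)).symm
  have him : ∫ x, ((u' x).im * φ x + (u x).im * φ' x) = 0 := by
    refine ibp_line hu2.im hu'2.im ?_ hφ hφc hφ2 hφ'2
    intro a b
    have h := congrArg Complex.im (hu a b)
    rw [Complex.sub_im] at h
    change (u b).im - (u a).im = _
    rw [h]
    exact (Complex.imCLM.intervalIntegral_comp_comm (hloc a b)).symm
  have h := integral_re_add_im hG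
  simp only [Pi.add_apply] at h
  rw [← h]
  have e1 : (∫ x, RCLike.re (u' x * (φ x : ℂ) + u x * (φ' x : ℂ))) = 0 := by
    rw [← hre]
    congr 1; ext x
    simp
  have e2 : (∫ x, RCLike.im (u' x * (φ x : ℂ) + u x * (φ' x : ℂ))) = 0 := by
    rw [← him]
    congr 1; ext x
    simp
  rw [e1, e2]; simp

/-! ### The ground state -/

/-- The ground state `(cosh x)^(-ν)`. -/
noncomputable def gs (ν x : ℝ) : ℝ := (Real.cosh x) ^ (-ν)

/-- The derivative of the ground state. -/
noncomputable def gs' (ν x : ℝ) : ℝ := -ν * Real.sinh x * (Real.cosh x) ^ (-ν - 1)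

/-- The second derivative of the ground state. -/
noncomputable def gs'' (ν x : ℝ) : ℝ :=
  ν ^ 2 * gs ν x - ν * (ν + 1) / (Real.cosh x) ^ 2 * gs ν x

theorem gs_pos (ν x : ℝ) : 0 < gs ν x := Real.rpow_pos_of_pos (Real.cosh_pos x) _

theorem hasDerivAt_gs (ν x : ℝ) : HasDerivAt (gs ν) (gs' ν x) x := by
  have h := (Real.hasDerivAt_cosh x).rpow_const (p := -ν) (Or.inl (Real.cosh_pos x).ne')
  refine h.congr_deriv ?_
  unfold gs'; ring

theorem hasDerivAt_gs' (ν x : ℝ) : HasDerivAt (gs' ν) (gs'' ν x) x := by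
  have hc := Real.cosh_pos x
  have h1 := (Real.hasDerivAt_cosh x).rpow_const (p := -ν - 1) (Or.inl hc.ne')
  have h2 := ((Real.hasDerivAt_sinh x).const_mul (-ν)).mul h1
  refine h2.congr_deriv ?_
  unfold gs'' gs
  have e1 : (Real.cosh x) ^ (-ν - 1) = (Real.cosh x) ^ (-ν) / Real.cosh x := by
    rw [Real.rpow_sub_one hc.ne']
  have e2 : (Real.cosh x) ^ (-ν - 1 - 1) = (Real.cosh x) ^ (-ν) / (Real.cosh x) ^ 2 := by
    rw [Real.rpow_sub_one hc.ne', Real.rpow_sub_one hc.ne']
    field_simp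
  rw [e1, e2]
  have e3 : Real.sinh x ^ 2 = Real.cosh x ^ 2 - 1 := by
    have := Real.cosh_sq x; linarith
  field_simp
  rw [show Real.sinh x ^ 2 = Real.cosh x ^ 2 - 1 from e3]
  ring

theorem continuous_gs (ν : ℝ) : Continuous (gs ν) :=
  continuous_iff_continuousAt.mpr fun x => (hasDerivAt_gs ν x).continuousAt

theorem continuous_gs' (ν : ℝ) : Continuous (gs' ν) :=
  continuous_iff_continuousAt.mpr fun x => (hasDerivAt_gs' ν x).continuousAt

theorem continuous_gs'' (ν : ℝ) : Continuous (gs'' ν) := by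
  unfold gs''
  have h1 := continuous_gs ν
  have h2 : Continuous fun x : ℝ => ν * (ν + 1) / (Real.cosh x) ^ 2 :=
    continuous_const.div (Real.continuous_cosh.pow 2) fun x => by
      have := Real.cosh_pos x; positivity
  exact (continuous_const.mul h1).sub (h2.mul h1)

theorem gs_sq (ν x : ℝ) : gs ν x ^ 2 = (Real.cosh x) ^ (-(2 * ν)) := by
  unfold gs
  rw [← Real.rpow_natCast, ← Real.rpow_mul (Real.cosh_pos x).le]
  congr 1; push_cast; ring

theorem memLp_gs {ν : ℝ} (hν : 0 < ν) : MemLp (gs ν) 2 volume := by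
  rw [memLp_two_iff_integrable_sq (continuous_gs ν).aestronglyMeasurable]
  simp_rw [gs_sq]
  exact integrable_cosh_rpow hν

theorem memLp_gs' {ν : ℝ} (hν : 0 < ν) : MemLp (gs' ν) 2 volume := by
  refine ((memLp_gs hν).const_mul ν).mono (continuous_gs' ν).aestronglyMeasurable
    (Eventually.of_forall fun x => ?_)
  have hc := Real.cosh_pos x
  have hs : |Real.sinh x| ≤ Real.cosh x := by
    rw [abs_le]
    constructor
    · have := Real.exp_pos x
      rw [Real.sinh_eq, Real.cosh_eq]; linarith [Real.exp_pos x, Real.exp_pos (-x)]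
    · exact (Real.sinh_lt_cosh x).le
  unfold gs' gs
  rw [Real.rpow_sub_one hc.ne']
  simp only [Real.norm_eq_abs, abs_mul, abs_neg, abs_div]
  rw [abs_of_pos (Real.rpow_pos_of_pos hc (-ν)), abs_of_pos hc, abs_of_pos hν]
  have hp := Real.rpow_pos_of_pos hc (-ν)
  calc ν * |Real.sinh x| * (Real.cosh x ^ (-ν) / Real.cosh x)
      = ν * Real.cosh x ^ (-ν) * (|Real.sinh x| / Real.cosh x) := by ring
    _ ≤ ν * Real.cosh x ^ (-ν) * 1 := by
        gcongr
        rw [div_le_one hc]; exact hs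
    _ = ν * Real.cosh x ^ (-ν) := by ring

theorem memLp_gs'' {ν : ℝ} (hν : 0 < ν) : MemLp (gs'' ν) 2 volume := by
  refine ((memLp_gs hν).const_mul (ν ^ 2 + ν * (ν + 1))).mono
    (continuous_gs'' ν).aestronglyMeasurable (Eventually.of_forall fun x => ?_)
  have hc := Real.cosh_pos x
  have hc1 : 1 ≤ Real.cosh x := Real.one_le_cosh x
  have hg := gs_pos ν x
  unfold gs''
  simp only [Real.norm_eq_abs]
  rw [abs_of_pos (show 0 < (ν ^ 2 + ν * (ν + 1)) * gs ν x by positivity)]
  rw [← sub_mul, abs_mul, abs_of_pos hg]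
  have h1 : ν * (ν + 1) / Real.cosh x ^ 2 ≤ ν * (ν + 1) := by
    apply div_le_self (by positivity)
    nlinarith
  have h2 : 0 ≤ ν * (ν + 1) / Real.cosh x ^ 2 := by positivity
  gcongr
  rw [abs_le]
  constructor <;> nlinarith [sq_nonneg ν]

/-! ### The extremal potential -/

theorem trPow_diagonal {m : ℕ} (p : ℝ) (d : Fin m → ℝ) :
    trPow p (Matrix.diagonal fun i => (d i : ℂ)) = ∑ i, (d i) ^ p := by
  classical
  have hH : (Matrix.diagonal fun i => (d i : ℂ)).IsHermitian := by
    rw [Matrix.IsHermitian, Matrix.diagonal_conjTranspose]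
    congr 1
    ext i
    simp
  unfold trPow
  rw [dif_pos hH]
  have h1 := hH.roots_charpoly_eq_eigenvalues
  rw [Matrix.charpoly_diagonal, Polynomial.roots_prod _ _ (by
    rw [Finset.prod_ne_zero_iff]
    intro i _
    exact Polynomial.X_sub_C_ne_zero _)] at h1
  have h2 := congrArg (fun s : Multiset ℂ => (s.map fun z => z.re ^ p).sum) h1
  simp only [Polynomial.roots_X_sub_C, Multiset.bind_singleton, Multiset.map_map,
    Function.comp_def, Complex.ofReal_re] at h2
  exact h2.symm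

/-- The extremal potential: `ν (ν+1) / cosh² x` in the entry `(i₀, i₀)`. -/
noncomputable def Wex (ν : ℝ) {m : ℕ} (i0 : Fin m) (x : ℝ) : Matrix (Fin m) (Fin m) ℂ :=
  Matrix.diagonal fun i => ((if i = i0 then ν * (ν + 1) / (Real.cosh x) ^ 2 else 0 : ℝ) : ℂ)

theorem trPow_Wex {ν : ℝ} (hν : 0 < ν) {m : ℕ} (i0 : Fin m) (x : ℝ) :
    trPow (ν + 1) (Wex ν i0 x) =
      (ν * (ν + 1)) ^ (ν + 1) * (Real.cosh x) ^ (-(2 * (ν + 1))) := by
  have hc := Real.cosh_pos x
  unfold Wex
  rw [trPow_diagonal, Finset.sum_eq_single i0]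
  · rw [if_pos rfl, Real.div_rpow (by positivity) (by positivity), ← Real.rpow_natCast,
      ← Real.rpow_mul hc.le, Real.rpow_neg hc.le]
    push_cast
    rw [div_eq_mul_inv]
  · intro i _ hi
    rw [if_neg hi, Real.zero_rpow (by positivity)]
  · simp

theorem potInt_Wex {ν : ℝ} (hν : 0 < ν) {m : ℕ} (i0 : Fin m) :
    potInt (ν + 1) (Wex ν i0) = ENNReal.ofReal ((ν * (ν + 1)) ^ (ν + 1) *
      (√Real.pi * Real.Gamma (ν + 1) / Real.Gamma (ν + 1 + 1 / 2))) := by
  unfold potInt
  simp_rw [trPow_Wex hν i0]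
  have : ∀ x : ℝ, ENNReal.ofReal ((ν * (ν + 1)) ^ (ν + 1) * (Real.cosh x) ^ (-(2 * (ν + 1)))) =
      ENNReal.ofReal ((ν * (ν + 1)) ^ (ν + 1)) *
        ENNReal.ofReal ((Real.cosh x) ^ (-(2 * (ν + 1)))) := fun x =>
    ENNReal.ofReal_mul (by positivity)
  simp_rw [this]
  rw [lintegral_const_mul' _ _ ENNReal.ofReal_ne_top, lintegral_cosh_rpow (by positivity),
    ← ENNReal.ofReal_mul (by positivity)]

theorem isPotential_Wex {ν : ℝ} (hν : 0 < ν) {m : ℕ} (i0 : Fin m) :
    IsPotential (ν + 1) (Wex ν i0) where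
  measurable i j := by
    unfold Wex
    by_cases hij : i = j
    · subst hij
      simp only [Matrix.diagonal_apply_eq]
      by_cases hi : i = i0
      · simp only [if_pos hi]
        have h2 : Continuous fun x : ℝ => ν * (ν + 1) / (Real.cosh x) ^ 2 :=
          continuous_const.div (Real.continuous_cosh.pow 2) fun x => by
            have := Real.cosh_pos x; positivity
        exact (Complex.continuous_ofReal.comp h2).measurable
      · simp only [if_neg hi]
        exact measurable_const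
    · simp only [Matrix.diagonal_apply_ne _ hij]
      exact measurable_const
  posSemidef x := by
    unfold Wex
    apply Matrix.PosSemidef.diagonal
    intro i
    have hc := Real.cosh_pos x
    simp only [Pi.zero_apply]
    rw [← Complex.ofReal_zero, Complex.real_le_real]
    split_ifs
    · positivity
    · exact le_rfl
  finite := by
    rw [potInt_Wex hν i0]
    exact ENNReal.ofReal_ne_top

/-! ### The eigenfunction -/

/-- The vector-valued function `h e_{i₀}`. -/
noncomputable def vec {m : ℕ} (i0 : Fin m) (h : ℝ → ℝ) (x : ℝ) : EuclideanSpace ℂ (Fin m) :=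
  (h x : ℂ) • EuclideanSpace.single i0 (1 : ℂ)

theorem memLp_vec {m : ℕ} (i0 : Fin m) {h : ℝ → ℝ} (hh : MemLp h 2 volume) :
    MemLp (vec i0 h) 2 volume := by
  have hc : MemLp (fun x => (h x : ℂ)) 2 volume := hh.ofReal
  exact (ContinuousLinearMap.toSpanSingleton ℂ
    (EuclideanSpace.single i0 (1 : ℂ) : EuclideanSpace ℂ (Fin m))).comp_memLp' hc

theorem isH1_vec {m : ℕ} (i0 : Fin m) {h h' : ℝ → ℝ} (hh : MemLp h 2 volume)
    (hh' : MemLp h' 2 volume) (hd : ∀ x, HasDerivAt h (h' x) x) (hc : Continuous h') :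
    IsH1 (vec i0 h) (vec i0 h') where
  memLp := memLp_vec i0 hh
  memLp_deriv := memLp_vec i0 hh'
  ftc a b := by
    unfold vec
    rw [intervalIntegral.integral_smul_const, intervalIntegral.integral_ofReal,
      intervalIntegral.integral_eq_sub_of_hasDerivAt (fun x _ => hd x)
        (hc.intervalIntegrable a b), ← sub_smul]
    push_cast; rfl

theorem inner_vec {m : ℕ} (i0 : Fin m) (h : ℝ → ℝ) (x : ℝ) (v : EuclideanSpace ℂ (Fin m)) :
    inner ℂ v (vec i0 h x) = conj (v i0) * (h x : ℂ) := by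
  unfold vec
  rw [inner_smul_right, EuclideanSpace.inner_single_right]
  simp [mul_comm]

theorem app_Wex_vec {m : ℕ} (ν : ℝ) (i0 : Fin m) (h : ℝ → ℝ) (x : ℝ) :
    app (Wex ν i0 x) (vec i0 h x) =
      vec i0 (fun x => ν * (ν + 1) / (Real.cosh x) ^ 2 * h x) x := by
  unfold app vec Wex
  ext i
  simp only [Matrix.mulVec_diagonal]
  by_cases hi : i = i0
  · subst hi; simp
  · simp [hi]

theorem isEigenfunction_vec {m : ℕ} {ν : ℝ} (hν : 0 < ν) (c : ℝ) (i0 : Fin m) :
    IsEigenfunction (Wex ν i0) (-ν ^ 2) (vec i0 fun x => c * gs ν x)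
      (vec i0 fun x => c * gs' ν x) := by
  refine ⟨isH1_vec i0 ((memLp_gs hν).const_mul c) ((memLp_gs' hν).const_mul c)
    (fun x => (hasDerivAt_gs ν x).const_mul c) (continuous_const.mul (continuous_gs' ν)), ?_⟩
  intro g g' hg
  simp_rw [app_Wex_vec, inner_vec]
  have hgi : MemLp (fun x => conj (g x i0)) 2 volume := by
    have h1 : MemLp (fun x => g x i0) 2 volume :=
      (EuclideanSpace.proj i0 : EuclideanSpace ℂ (Fin m) →L[ℂ] ℂ).comp_memLp' hg.memLp
    exact h1.star
  have hgi' : MemLp (fun x => conj (g' x i0)) 2 volume := by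
    have h1 : MemLp (fun x => g' x i0) 2 volume :=
      (EuclideanSpace.proj i0 : EuclideanSpace ℂ (Fin m) →L[ℂ] ℂ).comp_memLp' hg.memLp_deriv
    exact h1.star
  have hloc : ∀ a b, IntervalIntegrable g' volume a b := by
    intro a b
    have h1 : LocallyIntegrable g' volume := hg.memLp_deriv.locallyIntegrable (by norm_num)
    exact (h1.integrableOn_isCompact isCompact_uIcc).intervalIntegrable
  have hftc : ∀ a b, conj (g b i0) - conj (g a i0) = ∫ x in a..b, conj (g' x i0) := by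
    intro a b
    have h1 := congrArg (fun v : EuclideanSpace ℂ (Fin m) => conj (v i0)) (hg.ftc a b)
    simp only [PiLp.sub_apply, map_sub] at h1
    rw [h1]
    have h2 := ((EuclideanSpace.proj i0 : EuclideanSpace ℂ (Fin m) →L[ℂ] ℂ)).intervalIntegral_comp_comm
      (hloc a b)
    have h3 : (∫ x in a..b, g' x i0) = (∫ x in a..b, g' x) i0 := h2
    rw [← h3]
    change (starRingEnd ℂ) (∫ x in a..b, g' x i0) = ∫ x in a..b, (starRingEnd ℂ) (g' x i0)
    rw [intervalIntegral, intervalIntegral, integral_conj, integral_conj, map_sub]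
  have hibp := ibp_line_complex hgi hgi' hftc (φ := fun x => c * gs' ν x)
    (φ' := fun x => c * gs'' ν x) (fun x => (hasDerivAt_gs' ν x).const_mul c)
    (continuous_const.mul (continuous_gs'' ν)) ((memLp_gs' hν).const_mul c)
    ((memLp_gs'' hν).const_mul c)
  have hm0 : MemLp (fun x => ((c * gs ν x : ℝ) : ℂ)) 2 volume := ((memLp_gs hν).const_mul c).ofReal
  have hm1 : MemLp (fun x => ((c * gs' ν x : ℝ) : ℂ)) 2 volume :=
    ((memLp_gs' hν).const_mul c).ofReal
  have hm2 : MemLp (fun x => ((c * gs'' ν x : ℝ) : ℂ)) 2 volume :=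
    ((memLp_gs'' hν).const_mul c).ofReal
  have hI1 : Integrable (fun x => conj (g' x i0) * ((c * gs' ν x : ℝ) : ℂ)) :=
    hgi'.integrable_mul hm1
  have hI2 : Integrable (fun x => conj (g x i0) * ((c * gs'' ν x : ℝ) : ℂ)) :=
    hgi.integrable_mul hm2
  have hI0 : Integrable (fun x => conj (g x i0) * ((c * gs ν x : ℝ) : ℂ)) :=
    hgi.integrable_mul hm0
  rw [integral_add hI1 hI2] at hibp
  have hV : ∀ x, conj (g x i0) * ((ν * (ν + 1) / (Real.cosh x) ^ 2 * (c * gs ν x) : ℝ) : ℂ) =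
      (ν : ℂ) ^ 2 * (conj (g x i0) * ((c * gs ν x : ℝ) : ℂ)) -
        conj (g x i0) * ((c * gs'' ν x : ℝ) : ℂ) := by
    intro x
    unfold gs''
    push_cast
    ring
  simp_rw [hV]
  rw [integral_sub (hI0.const_mul _) hI2, integral_const_mul]
  push_cast at hibp ⊢
  linear_combination hibp

theorem Lone_le_LT {γ : ℝ} (hγ : 1 / 2 < γ) {m : ℕ} (hm : 1 ≤ m) :
    ENNReal.ofReal (Lone γ) ≤ LT γ m := by
  obtain ⟨ν, rfl⟩ : ∃ ν, γ = ν + 1 / 2 := ⟨γ - 1 / 2, by ring⟩
  have hν : 0 < ν := by linarith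
  have hp : ν + 1 / 2 + 1 / 2 = ν + 1 := by ring
  let i0 : Fin m := ⟨0, hm⟩
  have hG1 : 0 < Real.Gamma (ν + 1) := Real.Gamma_pos_of_pos (by linarith)
  have hG2 : 0 < Real.Gamma (ν + 1 + 1 / 2) := Real.Gamma_pos_of_pos (by linarith)
  have hP : 0 < (ν * (ν + 1)) ^ (ν + 1) *
      (√Real.pi * Real.Gamma (ν + 1) / Real.Gamma (ν + 1 + 1 / 2)) := by positivity
  have hne : potInt (ν + 1 / 2 + 1 / 2) (Wex ν i0) ≠ 0 := by
    rw [hp, potInt_Wex hν i0]
    exact (ENNReal.ofReal_pos.mpr hP).ne'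
  have hpot : IsPotential (ν + 1 / 2 + 1 / 2) (Wex ν i0) := by
    rw [hp]; exact isPotential_Wex hν i0
  -- the eigenvalue
  have hsys : IsNegEigenSystem (Wex ν i0) 1 (fun _ => -ν ^ 2) := by
    refine ⟨fun _ => by simp; positivity, ?_⟩
    set S : ℝ := ∫ x : ℝ, (Real.cosh x) ^ (-(2 * ν)) with hS
    have hSpos : 0 < S := integral_cosh_rpow_pos hν
    refine ⟨fun _ => vec i0 fun x => (√S)⁻¹ * gs ν x, fun _ => vec i0 fun x => (√S)⁻¹ * gs' ν x,
      fun _ => isEigenfunction_vec hν _ i0, ?_⟩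
    intro i j
    rw [if_pos (Subsingleton.elim i j)]
    simp_rw [inner_vec]
    have h1 : ∀ x : ℝ, conj ((vec i0 (fun x => (√S)⁻¹ * gs ν x) x) i0) *
        (((√S)⁻¹ * gs ν x : ℝ) : ℂ) = ((S⁻¹ * (Real.cosh x) ^ (-(2 * ν)) : ℝ) : ℂ) := by
      intro x
      rw [← gs_sq]
      have h2 : (vec i0 (fun x => (√S)⁻¹ * gs ν x) x) i0 = (((√S)⁻¹ * gs ν x : ℝ) : ℂ) := by
        simp [vec]
      rw [h2, Complex.conj_ofReal, ← Complex.ofReal_mul]
      congr 1
      have h3 : (√S)⁻¹ * (√S)⁻¹ = S⁻¹ := by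
        rw [← mul_inv, Real.mul_self_sqrt hSpos.le]
      calc (√S)⁻¹ * gs ν x * ((√S)⁻¹ * gs ν x) = ((√S)⁻¹ * (√S)⁻¹) * gs ν x ^ 2 := by ring
        _ = S⁻¹ * gs ν x ^ 2 := by rw [h3]
    simp_rw [h1]
    rw [integral_complex_ofReal, integral_const_mul, ← hS, inv_mul_cancel₀ hSpos.ne']
    simp
  have hneg : ENNReal.ofReal (|(-ν ^ 2)| ^ (ν + 1 / 2)) ≤ negMoment (ν + 1 / 2) (Wex ν i0) := by
    unfold negMoment
    refine le_trans ?_ (le_iSup _ 1)
    refine le_trans ?_ (le_iSup _ (fun _ => -ν ^ 2))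
    refine le_trans ?_ (le_iSup _ hsys)
    simp
  have hval : Lone (ν + 1 / 2) = |(-ν ^ 2)| ^ (ν + 1 / 2) / ((ν * (ν + 1)) ^ (ν + 1) *
      (√Real.pi * Real.Gamma (ν + 1) / Real.Gamma (ν + 1 + 1 / 2))) := by
    unfold Lone Lcl
    have e1 : |(-ν ^ 2)| ^ (ν + 1 / 2) = ν ^ ν * ν ^ (ν + 1) := by
      rw [abs_neg, abs_of_nonneg (sq_nonneg ν), ← Real.rpow_natCast, ← Real.rpow_mul hν.le,
        ← Real.rpow_add hν]
      congr 1; push_cast; ring
    have e2 : (ν * (ν + 1)) ^ (ν + 1) = ν ^ (ν + 1) * ((ν + 1) ^ ν * (ν + 1)) := by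
      rw [Real.mul_rpow hν.le (by linarith), Real.rpow_add_one (show ν + 1 ≠ 0 by linarith)]
    have e3 : ν + 1 / 2 - 1 / 2 = ν := by ring
    have e4 : ν + 1 / 2 + 1 = ν + 1 + 1 / 2 := by ring
    have e5 : ν + 1 / 2 + 3 / 2 = (ν + 1) + 1 := by ring
    have e6 : Real.Gamma ((ν + 1) + 1) = (ν + 1) * Real.Gamma (ν + 1) :=
      Real.Gamma_add_one (by linarith)
    rw [e1, e2, e3, hp, e4, e5, e6, Real.div_rpow hν.le (by linarith)]
    have h1 : 0 < ν ^ (ν + 1) := by positivity
    have h2 : 0 < (ν + 1) ^ ν := by positivity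
    have h3 : 0 < √Real.pi := by positivity
    field_simp
  unfold LT
  refine le_trans ?_ (le_iSup _ (Wex ν i0))
  refine le_trans ?_ (le_iSup _ hpot)
  refine le_trans ?_ (le_iSup _ hne)
  refine le_trans ?_ (ENNReal.div_le_div_right hneg _)
  rw [hp, potInt_Wex hν i0, ← ENNReal.ofReal_div_of_pos hP, hval]

end Vale.Agent.P371
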