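import Vale.Agent.Lib.P371.Meas

/-! From the kinetic inequality to the upper bounds on the Lieb-Thirring constants. -/

open MeasureTheory Matrix
open scoped ENNReal ComplexOrder ComplexConjugate Topology

namespace Vale.Agent.P371

variable {m n N : ℕ}

/-- The sharp one-dimensional kinetic inequality for orthonormal systems in `L^2(ℝ; ℂ^m)`. -/
def KineticIneq (m : ℕ) : Prop :=
  ∀ (N : ℕ) (f f' : Fin N → ℝ → EuclideanSpace ℂ (Fin m)), (∀ j, IsH1 (f j) (f' j)) →
    (∀ i j, (∫ x, inner ℂ (f i x) (f j x)) = if i = j then (1 : ℂ) else 0) →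
    (Real.pi ^ 2 / 4) * (∫ x, (trace ((Matrix.of fun i j => inner ℂ (f i x) (f j x) :
      Matrix (Fin N) (Fin N) ℂ) ^ 3)).re) ≤ ∫ x, ∑ j, ‖f' j x‖ ^ 2

theorem le_one_add_rpow {w p : ℝ} (hw : 0 ≤ w) (hp : 1 ≤ p) : w ≤ 1 + w ^ p := by
  rcases le_total w 1 with h | h
  · have := Real.rpow_nonneg hw p
    linarith
  · have h1 : w ^ (1 : ℝ) ≤ w ^ p := Real.rpow_le_rpow_of_exponent_le h hp
    rw [Real.rpow_one] at h1
    linarith

theorem inner_app_re_nonneg {M : Matrix (Fin m) (Fin m) ℂ} (hM : M.PosSemidef)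
    (v : EuclideanSpace ℂ (Fin m)) : 0 ≤ (inner ℂ v (app M v)).re := by
  rw [inner_app_eq hM.isHermitian, Complex.ofReal_re]
  exact Finset.sum_nonneg fun i _ => mul_nonneg (hM.eigenvalues_nonneg i) (by positivity)

theorem inner_app_im {M : Matrix (Fin m) (Fin m) ℂ} (hM : M.IsHermitian)
    (v : EuclideanSpace ℂ (Fin m)) :
    inner ℂ v (app M v) = (((inner ℂ v (app M v)).re : ℝ) : ℂ) := by
  rw [inner_app_eq hM, Complex.ofReal_re]

theorem inner_app_re_le {M : Matrix (Fin m) (Fin m) ℂ} (hM : M.PosSemidef) {p : ℝ} (hp : 1 ≤ p)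
    (v : EuclideanSpace ℂ (Fin m)) :
    (inner ℂ v (app M v)).re ≤ ‖v‖ ^ 2 + ‖v‖ ^ 2 * trPow p M := by
  have hH := hM.isHermitian
  rw [inner_app_eq hH, Complex.ofReal_re, trPow_eq_trF, trF_of hH, Finset.mul_sum]
  have h1 : ‖v‖ ^ 2 = ∑ i, ‖inner ℂ (hH.eigenvectorBasis i) v‖ ^ 2 :=
    (hH.eigenvectorBasis.sum_sq_norm_inner_right v).symm
  calc ∑ i, hH.eigenvalues i * ‖inner ℂ (hH.eigenvectorBasis i) v‖ ^ 2
      ≤ ∑ i, (‖inner ℂ (hH.eigenvectorBasis i) v‖ ^ 2 + ‖v‖ ^ 2 * hH.eigenvalues i ^ p) := by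
        refine Finset.sum_le_sum fun i _ => ?_
        have h2 := le_one_add_rpow (hM.eigenvalues_nonneg i) hp
        have h3 : ‖inner ℂ (hH.eigenvectorBasis i) v‖ ^ 2 ≤ ‖v‖ ^ 2 := by
          rw [h1]
          exact Finset.single_le_sum (f := fun i => ‖inner ℂ (hH.eigenvectorBasis i) v‖ ^ 2)
            (fun j _ => by positivity) (Finset.mem_univ i)
        have h4 := Real.rpow_nonneg (hM.eigenvalues_nonneg i) p
        calc hH.eigenvalues i * ‖inner ℂ (hH.eigenvectorBasis i) v‖ ^ 2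
            ≤ (1 + hH.eigenvalues i ^ p) * ‖inner ℂ (hH.eigenvectorBasis i) v‖ ^ 2 :=
              mul_le_mul_of_nonneg_right h2 (by positivity)
          _ = ‖inner ℂ (hH.eigenvectorBasis i) v‖ ^ 2
              + hH.eigenvalues i ^ p * ‖inner ℂ (hH.eigenvectorBasis i) v‖ ^ 2 := by ring
          _ ≤ _ := by
              rw [mul_comm (‖v‖ ^ 2)]
              exact add_le_add le_rfl (mul_le_mul_of_nonneg_left h3 h4)
    _ = _ := by rw [Finset.sum_add_distrib, ← h1]

theorem trPow_nonneg {M : Matrix (Fin m) (Fin m) ℂ} (hM : M.PosSemidef) (p : ℝ) :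
    0 ≤ trPow p M := by
  rw [trPow_eq_trF, trF_of hM.isHermitian]
  exact Finset.sum_nonneg fun i _ => Real.rpow_nonneg (hM.eigenvalues_nonneg i) p

theorem IsPotential.integrable {p : ℝ} (hp : 0 ≤ p) {W : ℝ → Matrix (Fin m) (Fin m) ℂ}
    (hW : IsPotential p W) : Integrable (fun x => trPow p (W x)) volume := by
  have hm : Measurable fun x => trPow p (W x) :=
    measurable_trF hW.measurable (fun x => (hW.posSemidef x).isHermitian)
      (Real.continuous_rpow_const hp)
  rw [← lintegral_ofReal_ne_top_iff_integrable hm.aestronglyMeasurable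
    (Filter.Eventually.of_forall fun x => trPow_nonneg (hW.posSemidef x) p)]
  exact hW.finite

theorem measurable_inner_app {p : ℝ} {W : ℝ → Matrix (Fin m) (Fin m) ℂ} (hW : IsPotential p W)
    {f f' : ℝ → EuclideanSpace ℂ (Fin m)} (hf : IsH1 f f') :
    Measurable fun x => (inner ℂ (f x) (app (W x) (f x)) : ℂ) := by
  have h1 : ∀ i, Measurable fun x => f x i := fun i =>
    ((EuclideanSpace.proj i).continuous.comp hf.continuous).measurable
  have h2 : (fun x => (inner ℂ (f x) (app (W x) (f x)) : ℂ))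
      = fun x => ∑ i, (∑ j, W x i j * f x j) * conj (f x i) := by
    funext x
    rw [PiLp.inner_apply]
    rfl
  rw [h2]
  refine Finset.measurable_sum _ fun i _ => Measurable.mul ?_ ?_
  · exact Finset.measurable_sum _ fun j _ => (hW.measurable i j).mul (h1 j)
  · exact Complex.continuous_conj.measurable.comp (h1 i)

theorem integrable_inner_app {p : ℝ} (hp : 1 ≤ p) {W : ℝ → Matrix (Fin m) (Fin m) ℂ}
    (hW : IsPotential p W) {f f' : ℝ → EuclideanSpace ℂ (Fin m)} (hf : IsH1 f f') :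
    Integrable (fun x => (inner ℂ (f x) (app (W x) (f x))).re) volume := by
  set C := (1 + ∫ y, ‖f y‖ ^ 2) / 2 + (1 + ∫ y, ‖f' y‖ ^ 2) / 2 with hC
  refine Integrable.mono' (g := fun x => ‖f x‖ ^ 2 + C ^ 2 * trPow p (W x)) ?_ ?_ ?_
  · exact hf.integrable_sq.add ((hW.integrable (by linarith)).const_mul _)
  · exact (Complex.measurable_re.comp (measurable_inner_app hW hf)).aestronglyMeasurable
  · refine Filter.Eventually.of_forall fun x => ?_
    rw [Real.norm_eq_abs, abs_of_nonneg (inner_app_re_nonneg (hW.posSemidef x) _)]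
    refine (inner_app_re_le (hW.posSemidef x) hp _).trans (add_le_add le_rfl ?_)
    refine mul_le_mul_of_nonneg_right ?_ (trPow_nonneg (hW.posSemidef x) p)
    have := hf.bounded x
    gcongr

/-- testing the eigenvalue equation with the eigenfunction. -/
theorem IsEigenfunction.test {p : ℝ} {W : ℝ → Matrix (Fin m) (Fin m) ℂ}
    (hW : IsPotential p W) {lam : ℝ} {f f' : ℝ → EuclideanSpace ℂ (Fin m)}
    (h : IsEigenfunction W lam f f') (hn : (∫ x, inner ℂ (f x) (f x)) = (1 : ℂ)) :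
    lam = (∫ x, ‖f' x‖ ^ 2) - ∫ x, (inner ℂ (f x) (app (W x) (f x))).re := by
  have h1 := h.2 f f' h.1
  rw [hn, mul_one] at h1
  have h2 : (∫ x, (inner ℂ (f' x) (f' x) : ℂ)) = ((∫ x, ‖f' x‖ ^ 2 : ℝ) : ℂ) := by
    rw [← integral_complex_ofReal]
    refine integral_congr_ae (Filter.Eventually.of_forall fun x => ?_)
    simp only
    rw [inner_self_eq_norm_sq_to_K]
    norm_cast
  have h3 : (∫ x, (inner ℂ (f x) (app (W x) (f x)) : ℂ))
      = ((∫ x, (inner ℂ (f x) (app (W x) (f x))).re : ℝ) : ℂ) := by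
    rw [← integral_complex_ofReal]
    refine integral_congr_ae (Filter.Eventually.of_forall fun x => ?_)
    exact inner_app_im (hW.posSemidef x).isHermitian _
  rw [h2, h3] at h1
  exact_mod_cast h1.symm

theorem norm_integral_eq_one {f : ℝ → EuclideanSpace ℂ (Fin m)}
    (hn : (∫ x, inner ℂ (f x) (f x)) = (1 : ℂ)) : ∫ x, ‖f x‖ ^ 2 = 1 := by
  have h2 : (∫ x, (inner ℂ (f x) (f x) : ℂ)) = ((∫ x, ‖f x‖ ^ 2 : ℝ) : ℂ) := by
    rw [← integral_complex_ofReal]
    refine integral_congr_ae (Filter.Eventually.of_forall fun x => ?_)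
    simp only
    rw [inner_self_eq_norm_sq_to_K]
    norm_cast
  rw [h2] at hn
  exact_mod_cast hn

theorem norm_Rop_le {f : Fin N → EuclideanSpace ℂ (Fin m)} {C : ℝ} (hC : ∀ j, ‖f j‖ ≤ C)
    (v : EuclideanSpace ℂ (Fin m)) : ‖Rop f v‖ ≤ N * C ^ 2 * ‖v‖ := by
  unfold Rop
  calc ‖∑ k, (inner ℂ (f k) v) • f k‖ ≤ ∑ k : Fin N, C ^ 2 * ‖v‖ := by
        refine (norm_sum_le _ _).trans (Finset.sum_le_sum fun k _ => ?_)
        rw [norm_smul]
        have h1 := norm_inner_le_norm (𝕜 := ℂ) (f k) v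
        have h0 := (norm_nonneg _).trans (hC k)
        calc ‖inner ℂ (f k) v‖ * ‖f k‖ ≤ (‖f k‖ * ‖v‖) * ‖f k‖ := by gcongr
          _ ≤ (C * ‖v‖) * C := by
              have := hC k
              gcongr
          _ = C ^ 2 * ‖v‖ := by ring
    _ = _ := by
        rw [Finset.sum_const, Finset.card_univ, Fintype.card_fin, nsmul_eq_mul]
        ring

theorem integrable_trace_gram {f f' : Fin N → ℝ → EuclideanSpace ℂ (Fin m)}
    (hf : ∀ j, IsH1 (f j) (f' j)) :
    Integrable (fun x => (trace ((Matrix.of fun i j => inner ℂ (f i x) (f j x) :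
      Matrix (Fin N) (Fin N) ℂ) ^ 3)).re) volume := by
  have h0 : ∃ C : ℝ, ∀ j x, ‖f j x‖ ≤ C := by
    refine ⟨∑ j, |(1 + ∫ y, ‖f j y‖ ^ 2) / 2 + (1 + ∫ y, ‖f' j y‖ ^ 2) / 2|, fun j x => ?_⟩
    refine ((hf j).bounded x).trans ((le_abs_self _).trans ?_)
    exact Finset.single_le_sum (f := fun j =>
      |(1 + ∫ y, ‖f j y‖ ^ 2) / 2 + (1 + ∫ y, ‖f' j y‖ ^ 2) / 2|) (fun j _ => abs_nonneg _)
      (Finset.mem_univ j)
  obtain ⟨C, hC⟩ := h0
  have h1 : ∀ x, (trace ((Matrix.of fun i j => inner ℂ (f i x) (f j x) :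
      Matrix (Fin N) (Fin N) ℂ) ^ 3)).re = ∑ j, ‖Rop (fun i => f i x) (f j x)‖ ^ 2 := by
    intro x
    rw [← trace_gram_cube, Complex.ofReal_re]
  simp only [h1]
  have hcont : Continuous fun x => ∑ j, ‖Rop (fun i => f i x) (f j x)‖ ^ 2 := by
    unfold Rop
    refine continuous_finsetSum _ fun j _ => Continuous.pow (Continuous.norm ?_) 2
    refine continuous_finsetSum _ fun k _ => ?_
    exact (Continuous.inner (𝕜 := ℂ) (hf k).continuous (hf j).continuous).smul (hf k).continuous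
  refine Integrable.mono' (g := fun x => ∑ j, (N * C ^ 2) ^ 2 * ‖f j x‖ ^ 2) ?_
    hcont.aestronglyMeasurable ?_
  · exact integrable_finsetSum _ fun j _ => (hf j).integrable_sq.const_mul _
  · refine Filter.Eventually.of_forall fun x => ?_
    rw [Real.norm_eq_abs, abs_of_nonneg (Finset.sum_nonneg fun j _ => by positivity)]
    refine Finset.sum_le_sum fun j _ => ?_
    rw [← mul_pow]
    have := norm_Rop_le (fun i => hC i x) (f j x)
    gcongr

/-- the constant `2 / (√3 π)`. -/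
theorem const_facts : 0 < 2 / (√3 * Real.pi) ∧
    1 / 3 * ((2 / (√3 * Real.pi))⁻¹) ^ 2 = Real.pi ^ 2 / 4 := by
  have h3 : (0 : ℝ) < √3 := by positivity
  have hpi := Real.pi_pos
  refine ⟨by positivity, ?_⟩
  have h4 : (√3) ^ 2 = 3 := Real.sq_sqrt (by norm_num)
  rw [inv_div, div_pow, mul_pow, h4]
  ring

theorem sum_neg_eigenvalue_le (hK : KineticIneq m) {p : ℝ} (hp : 1 ≤ p)
    {W : ℝ → Matrix (Fin m) (Fin m) ℂ} (hW : IsPotential p W) {lam : Fin n → ℝ}
    {f f' : Fin n → ℝ → EuclideanSpace ℂ (Fin m)}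
    (hf : ∀ j, IsEigenfunction W (lam j) (f j) (f' j))
    (ho : ∀ i j, (∫ x, inner ℂ (f i x) (f j x)) = if i = j then (1 : ℂ) else 0) {τ : ℝ}
    (hi : Integrable (fun x => trF (fun t => (max (t - τ) 0) ^ (3 / 2 : ℝ)) (W x)) volume) :
    ∑ j, (-lam j - τ) ≤ 2 / 3 * (2 / (√3 * Real.pi)) *
      ∫ x, trF (fun t => (max (t - τ) 0) ^ (3 / 2 : ℝ)) (W x) := by
  obtain ⟨hs, hs2⟩ := const_facts
  have h1 : ∀ j, -lam j - τ = (∫ x, ((inner ℂ (f j x) (app (W x) (f j x))).re - τ * ‖f j x‖ ^ 2))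
      - ∫ x, ‖f' j x‖ ^ 2 := by
    intro j
    have h2 : (∫ x, inner ℂ (f j x) (f j x)) = (1 : ℂ) := by rw [ho j j, if_pos rfl]
    have h3 := (hf j).test hW h2
    rw [integral_sub (integrable_inner_app hp hW (hf j).1) ((hf j).1.integrable_sq.const_mul τ),
      integral_const_mul, norm_integral_eq_one h2]
    linarith
  have hint : ∀ j, Integrable (fun x => (inner ℂ (f j x) (app (W x) (f j x))).re
      - τ * ‖f j x‖ ^ 2) volume := fun j =>
    (integrable_inner_app hp hW (hf j).1).sub ((hf j).1.integrable_sq.const_mul τ)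
  have h4 : ∑ j, (-lam j - τ)
      = (∫ x, ∑ j, ((inner ℂ (f j x) (app (W x) (f j x))).re - τ * ‖f j x‖ ^ 2))
        - ∫ x, ∑ j, ‖f' j x‖ ^ 2 := by
    rw [integral_finsetSum _ fun j _ => hint j, integral_finsetSum _ fun j _ =>
      (hf j).1.integrable_deriv_sq, ← Finset.sum_sub_distrib]
    exact Finset.sum_congr rfl fun j _ => h1 j
  have h5 := hK n f f' (fun j => (hf j).1) ho
  have h6 := integrable_trace_gram (fun j => (hf j).1)
  have h7 : ∫ x, ∑ j, ((inner ℂ (f j x) (app (W x) (f j x))).re - τ * ‖f j x‖ ^ 2)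
      ≤ ∫ x, (2 / 3 * (2 / (√3 * Real.pi)) * trF (fun t => (max (t - τ) 0) ^ (3 / 2 : ℝ)) (W x)
        + Real.pi ^ 2 / 4 * (trace ((Matrix.of fun i j => inner ℂ (f i x) (f j x) :
          Matrix (Fin n) (Fin n) ℂ) ^ 3)).re) := by
    refine integral_mono ?_ ((hi.const_mul _).add (h6.const_mul _)) fun x => ?_
    · exact integrable_finsetSum _ fun j _ => hint j
    · have := pointwise_le (hW.posSemidef x).isHermitian (fun j => f j x) τ hs
      rw [hs2] at this
      exact this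
  rw [integral_add (hi.const_mul _) (h6.const_mul _), integral_const_mul, integral_const_mul] at h7
  rw [h4]
  linarith

theorem trF_nonneg {φ : ℝ → ℝ} (hφ : ∀ t, 0 ≤ φ t) (M : Matrix (Fin m) (Fin m) ℂ) :
    0 ≤ trF φ M := by
  unfold trF
  split_ifs
  · exact Finset.sum_nonneg fun i _ => hφ _
  · exact le_rfl

theorem phi_nonneg (τ t : ℝ) : 0 ≤ (max (t - τ) 0) ^ (3 / 2 : ℝ) :=
  Real.rpow_nonneg (le_max_right _ _) _

theorem phi_continuous (τ : ℝ) : Continuous fun t : ℝ => (max (t - τ) 0) ^ (3 / 2 : ℝ) :=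
  (Real.continuous_rpow_const (by norm_num)).comp
    ((continuous_id.sub continuous_const).max continuous_const)

/-- Riesz means of order one, with an arbitrary threshold. -/
theorem riesz_le (hK : KineticIneq m) {p : ℝ} (hp : 1 ≤ p)
    {W : ℝ → Matrix (Fin m) (Fin m) ℂ} (hW : IsPotential p W) {lam : Fin n → ℝ}
    (h : IsNegEigenSystem W n lam) (τ : ℝ) :
    ∑ j, ENNReal.ofReal (|lam j| - τ) ≤ ENNReal.ofReal (2 / 3 * (2 / (√3 * Real.pi))) *
      ∫⁻ x, ENNReal.ofReal (trF (fun t => (max (t - τ) 0) ^ (3 / 2 : ℝ)) (W x)) := by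
  obtain ⟨hneg, f, f', hf, ho⟩ := h
  have hc : 0 < 2 / 3 * (2 / (√3 * Real.pi)) := mul_pos (by norm_num) const_facts.1
  by_cases htop : ∫⁻ x, ENNReal.ofReal (trF (fun t => (max (t - τ) 0) ^ (3 / 2 : ℝ)) (W x)) = ∞
  · rw [htop, ENNReal.mul_top (by rwa [Ne, ENNReal.ofReal_eq_zero, not_le])]
    exact le_top
  have hmeas : Measurable fun x => trF (fun t => (max (t - τ) 0) ^ (3 / 2 : ℝ)) (W x) :=
    measurable_trF hW.measurable (fun x => (hW.posSemidef x).isHermitian) (phi_continuous τ)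
  have hnn : ∀ x, 0 ≤ trF (fun t => (max (t - τ) 0) ^ (3 / 2 : ℝ)) (W x) := fun x =>
    trF_nonneg (phi_nonneg τ) _
  have hi : Integrable (fun x => trF (fun t => (max (t - τ) 0) ^ (3 / 2 : ℝ)) (W x)) volume := by
    rw [← lintegral_ofReal_ne_top_iff_integrable hmeas.aestronglyMeasurable
      (Filter.Eventually.of_forall hnn)]
    exact htop
  rw [← ofReal_integral_eq_lintegral_ofReal hi (Filter.Eventually.of_forall hnn),
    ← ENNReal.ofReal_mul hc.le]
  -- the subfamily with `|lam j| > τ`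
  set S := Finset.univ.filter fun j : Fin n => τ < |lam j| with hS
  set g : Fin S.card → Fin n := fun k => (S.equivFin.symm k : Fin n) with hg
  have hinj : Function.Injective g := fun a b hab => by
    have := Subtype.ext hab
    exact S.equivFin.symm.injective this
  have h1 := sum_neg_eigenvalue_le hK hp hW (lam := lam ∘ g) (f := fun k => f (g k))
    (f' := fun k => f' (g k)) (fun k => hf (g k)) (fun a b => by
      rw [ho (g a) (g b)]
      simp only [hinj.eq_iff]) hi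
  have h2 : ∑ j, ENNReal.ofReal (|lam j| - τ) = ∑ j ∈ S, ENNReal.ofReal (|lam j| - τ) := by
    rw [hS, Finset.sum_filter]
    refine Finset.sum_congr rfl fun j _ => ?_
    split_ifs with h3
    · rfl
    · rw [ENNReal.ofReal_eq_zero]
      linarith
  have h3 : ∑ j ∈ S, ENNReal.ofReal (|lam j| - τ)
      = ∑ k, ENNReal.ofReal (-(lam ∘ g) k - τ) := by
    rw [← Finset.sum_coe_sort S, ← Equiv.sum_comp S.equivFin.symm]
    refine Finset.sum_congr rfl fun k _ => ?_
    rw [abs_of_neg (hneg _)]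
    rfl
  rw [h2, h3, ← ENNReal.ofReal_sum_of_nonneg]
  · exact ENNReal.ofReal_le_ofReal h1
  · intro k _
    have h4 : g k ∈ S := (S.equivFin.symm k).2
    have h5 := (Finset.mem_filter.1 h4).2
    rw [abs_of_neg (hneg _)] at h5
    simp only [Function.comp]
    linarith

end Vale.Agent.P371
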