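import Vale.Agent.Lib.P371.WMat
import Vale.Agent.Lib.P371.Defs

/-! # Theorem K: the sharp kinetic inequality for (sub)orthonormal systems on the line -/

open MeasureTheory Set Filter Topology Matrix
open scoped ComplexOrder Real

namespace Vale.Agent.P371

section
variable {l n : Type*} [Fintype l] [Fintype n] [DecidableEq n]

omit [Fintype n] [DecidableEq n] in
theorem integrable_gram {U V : ℝ → Matrix l n ℂ} (hU : ∀ a i, MemLp (fun x => U x a i) 2 volume)
    (hV : ∀ a i, MemLp (fun x => V x a i) 2 volume) (i j : n) :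
    Integrable (fun x => ((U x)ᴴ * V x) i j) := by
  simp only [Matrix.mul_apply, Matrix.conjTranspose_apply]
  refine integrable_finsetSum _ fun a _ => ?_
  exact ((hU a i).star).integrable_mul (hV a j)

omit [DecidableEq n] in
theorem integrable_kin {U : ℝ → Matrix l n ℂ} (hU : ∀ a i, MemLp (fun x => U x a i) 2 volume) :
    Integrable (fun x => ((U x)ᴴ * U x).trace.re) := by
  simp only [gram_trace]
  refine integrable_finsetSum _ fun i _ => integrable_finsetSum _ fun a _ => ?_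
  exact (hU a i).integrable_norm_pow (by norm_num)

theorem HasW.bounded {f f' : ℝ → ℂ} (hf : HasW f f') (h : Integrable f') (x : ℝ) :
    ‖f x‖ ≤ ‖f 0‖ + ∫ y, ‖f' y‖ := by
  rw [hf.eq_add 0 x]
  refine (norm_add_le _ _).trans (add_le_add le_rfl ?_)
  refine intervalIntegral.norm_integral_le_integral_norm_uIoc.trans ?_
  exact setIntegral_le_integral h.norm (Eventually.of_forall fun t => norm_nonneg _)

theorem kinetic_matrix_aux {U U' : ℝ → Matrix l n ℂ} (hU : HasWM U U')
    (h2 : ∀ a i, MemLp (fun x => U x a i) 2 volume)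
    (h2' : ∀ a i, MemLp (fun x => U' x a i) 2 volume)
    (ho : (1 - Matrix.of fun i j => ∫ x, ((U x)ᴴ * U x) i j).PosSemidef)
    {θ δ : ℝ} (hθ : 0 < θ) (hδ : 0 < δ) (hθδ : 2 * θ + δ < π)
    {P : Polynomial ℝ} {ε M : ℝ} (hM : ∀ s ∈ Set.Icc (0:ℝ) 2, |Fc θ δ s| ≤ M)
    (hM0 : 0 ≤ M) (hε : 0 ≤ ε)
    (hP : ∀ s ∈ Set.Icc (0:ℝ) 2,
      |P.eval s - Fc θ δ s| ≤ ε ∧ |P.derivative.eval s - Fc' θ δ s| ≤ ε) :
    4 * θ ^ 2 * ∫ x, ((U x)ᴴ * U x * ((U x)ᴴ * U x) * ((U x)ᴴ * U x)).trace.re ≤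
      4 * (∫ x, ((U' x)ᴴ * U' x).trace.re) + (Fintype.card n : ℝ) ^ 3 *
        (ε * (2 * M + ε) + 2 * ε) * ∫ x, (((U x)ᴴ * U x).trace.re) ^ 3 := by
  set B : ℝ → Matrix n n ℂ := fun x => (U x)ᴴ * U x with hBdef
  set B' : ℝ → Matrix n n ℂ := fun x => (U' x)ᴴ * U x + (U x)ᴴ * U' x with hB'def
  have hB : HasWM B B' := hU.conjTranspose.mul hU
  have hBi : ∀ i j, Integrable (fun x => B x i j) := integrable_gram h2 h2
  have hB'i : ∀ i j, Integrable (fun x => B' x i j) := fun i j =>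
    (integrable_gram h2' h2 i j).add (integrable_gram h2 h2' i j)
  have hBpsd : ∀ x, (B x).PosSemidef := fun x => Matrix.posSemidef_conjTranspose_mul_self _
  set A : ℝ → Matrix n n ℂ := fun x => Matrix.of fun i j => ∫ y in Iic x, B y i j with hAdef
  have hA : HasWM A B := fun i j => ⟨fun a b => (hBi i j).intervalIntegrable, fun a b =>
    intervalIntegral.integral_Iic_sub_Iic (hBi i j).integrableOn (hBi i j).integrableOn⟩
  have hApsd : ∀ x, (A x).PosSemidef := fun x =>
    psd_integral (fun i j => (hBi i j).integrableOn) hBpsd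
  have hA1 : ∀ x, (1 - A x).PosSemidef := by
    intro x
    have h3 : (Matrix.of fun i j => ∫ y in Ioi x, B y i j).PosSemidef :=
      psd_integral (fun i j => (hBi i j).integrableOn) hBpsd
    have h4 := ho.add h3
    convert h4 using 1
    ext i j
    have := intervalIntegral.integral_Iic_add_Ioi (b := x) (hBi i j).integrableOn
      (hBi i j).integrableOn
    simp only [Matrix.sub_apply, Matrix.add_apply, Matrix.of_apply, hAdef]
    rw [← this]; ring
  obtain ⟨K, hK⟩ : ∃ K : ℝ, ∀ x i j, ‖A x i j‖ ≤ K := by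
    refine ⟨∑ i, ∑ j, ∫ y, ‖B y i j‖, fun x i j => ?_⟩
    have h3 : ‖A x i j‖ ≤ ∫ y, ‖B y i j‖ := by
      refine (norm_integral_le_integral_norm _).trans ?_
      exact setIntegral_le_integral (hBi i j).norm (Eventually.of_forall fun t => norm_nonneg _)
    have h4 : ∀ i j : n, 0 ≤ ∫ y, ‖B y i j‖ := fun i j => integral_nonneg fun y => norm_nonneg _
    refine h3.trans ((Finset.single_le_sum (f := fun j => ∫ y, ‖B y i j‖)
      (fun j _ => h4 i j) (Finset.mem_univ j)).trans ?_)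
    exact Finset.single_le_sum (f := fun i => ∑ j, ∫ y, ‖B y i j‖)
      (fun i _ => Finset.sum_nonneg fun j _ => h4 i j) (Finset.mem_univ i)
  have hZt : ZM atTop B := fun i j => (hB i j).tendsto_atTop (hBi i j) (hB'i i j)
  have hZb : ZM atBot B := fun i j => (hB i j).tendsto_atBot (hBi i j) (hB'i i j)
  have hV := (hB.mul (hA.PhiP P hB)).trace
  have hVt : Tendsto (fun x => (B x * PhiP P (A x) (B x)).trace) atTop (𝓝 0) :=
    (hZt.mul (hZt.PhiP P hK)).trace
  have hVb : Tendsto (fun x => (B x * PhiP P (A x) (B x)).trace) atBot (𝓝 0) :=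
    (hZb.mul (hZb.PhiP P hK)).trace
  set V : ℝ → ℂ := fun x => (B x * PhiP P (A x) (B x)).trace with hVdef
  set V' : ℝ → ℂ := fun x => (B' x * PhiP P (A x) (B x) + B x * (PhiP P (A x) (B' x)
    + EP P (A x) (B x))).trace with hV'def
  set t3 : ℝ → ℝ := fun x => (B x * B x * B x).trace.re with ht3
  set τ : ℝ → ℝ := fun x => (B x).trace.re with hτ
  set k : ℝ → ℝ := fun x => ((U' x)ᴴ * U' x).trace.re with hk
  set c : ℝ := (Fintype.card n : ℝ) ^ 3 * (ε * (2 * M + ε) + 2 * ε) with hc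
  have hBcont : Continuous B := by
    refine continuous_matrix fun i j => (hB i j).continuous
  have hτc : Continuous τ := Complex.continuous_re.comp hBcont.matrix_trace
  have ht3c : Continuous t3 := Complex.continuous_re.comp ((hBcont.mul hBcont).mul hBcont).matrix_trace
  have hki : Integrable k := integrable_kin h2'
  have hτi : Integrable τ := integrable_kin h2
  have hτ0 : ∀ x, 0 ≤ τ x := fun x => (Complex.le_def.1 (hBpsd x).trace_nonneg).1
  obtain ⟨T, hT⟩ : ∃ T : ℝ, ∀ x, τ x ≤ T := by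
    refine ⟨∑ i, (‖B 0 i i‖ + ∫ y, ‖B' y i i‖), fun x => ?_⟩
    have : τ x = ∑ i, (B x i i).re := by simp [hτ, Matrix.trace]
    rw [this]
    refine Finset.sum_le_sum fun i _ => ?_
    exact (Complex.re_le_norm _).trans ((hB i i).bounded (hB'i i i) x)
  have hτ3i : Integrable (fun x => τ x ^ 3) := by
    refine Integrable.mono' (g := fun x => T ^ 2 * τ x) (hτi.const_mul _)
      (hτc.pow 3).aestronglyMeasurable (Eventually.of_forall fun x => ?_)
    rw [Real.norm_eq_abs, abs_of_nonneg (pow_nonneg (hτ0 x) 3)]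
    have h0 := hτ0 x
    have h3 : τ x ^ 2 ≤ T ^ 2 := pow_le_pow_left₀ h0 (hT x) 2
    nlinarith
  have ht3i : Integrable t3 := by
    refine Integrable.mono' (g := fun x => (Fintype.card n : ℝ) ^ 3 * τ x ^ 3 * 1)
      ((hτ3i.const_mul _).mul_const _) ht3c.aestronglyMeasurable (Eventually.of_forall fun x => ?_)
    rw [Real.norm_eq_abs]
    have h3 := abs_cub_le (B := B x) (τ := τ x) (w := fun _ _ _ => 1) (ε := 1)
      (fun i j => gram_entry_le (U x) i j) (by simp)
    rw [cub_one] at h3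
    exact h3
  have hineq : ∀ x, 4 * θ ^ 2 * t3 x + (V' x).re ≤ 4 * k x + c * τ x ^ 3 := by
    intro x
    have h3 := pointwise hθ hδ hθδ hM hM0 hε hP (hApsd x) (hA1 x) (U x) (U' x)
    simp only [hV'def, ht3, hk, hτ, hc, Matrix.trace_add, Complex.add_re, Matrix.mul_add] at h3 ⊢
    linarith
  have hV're : ∀ a b, IntervalIntegrable (fun x => (V' x).re) volume a b := by
    intro a b
    have h3 := hV.int a b
    rw [intervalIntegrable_iff] at h3 ⊢
    exact h3.re
  have hV'int : ∀ a b, ∫ x in a..b, (V' x).re = (V b).re - (V a).re := by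
    intro a b
    have h3 := ContinuousLinearMap.intervalIntegral_comp_comm Complex.reCLM (hV.int a b)
    simp only [Complex.reCLM_apply] at h3
    rw [h3, ← hV.ftc, Complex.sub_re]
  have hR : ∀ᶠ R : ℝ in atTop, 4 * θ ^ 2 * (∫ x in (-R)..R, t3 x) + ((V R).re - (V (-R)).re)
      ≤ 4 * (∫ x in (-R)..R, k x) + c * ∫ x in (-R)..R, τ x ^ 3 := by
    filter_upwards [eventually_ge_atTop 0] with R hR
    have h3 : ∫ x in (-R)..R, (4 * θ ^ 2 * t3 x + (V' x).re)
        ≤ ∫ x in (-R)..R, (4 * k x + c * τ x ^ 3) :=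
      intervalIntegral.integral_mono_on (by linarith)
        ((ht3i.intervalIntegrable.const_mul _).add (hV're _ _))
        ((hki.intervalIntegrable.const_mul _).add (hτ3i.intervalIntegrable.const_mul _))
        fun x _ => hineq x
    rw [intervalIntegral.integral_add (ht3i.intervalIntegrable.const_mul _) (hV're _ _),
      intervalIntegral.integral_add (hki.intervalIntegrable.const_mul _)
        (hτ3i.intervalIntegrable.const_mul _), intervalIntegral.integral_const_mul,
      intervalIntegral.integral_const_mul, intervalIntegral.integral_const_mul, hV'int] at h3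
    exact h3
  have hneg : Tendsto (fun R : ℝ => -R) atTop atBot := tendsto_neg_atTop_atBot
  have l1 := (intervalIntegral_tendsto_integral ht3i hneg tendsto_id).const_mul (4 * θ ^ 2)
  have l2 := (intervalIntegral_tendsto_integral hki hneg tendsto_id).const_mul 4
  have l3 := (intervalIntegral_tendsto_integral hτ3i hneg tendsto_id).const_mul c
  have l4 : Tendsto (fun R : ℝ => (V R).re - (V (-R)).re) atTop (𝓝 0) := by
    have a1 := (Complex.continuous_re.tendsto 0).comp hVt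
    have a2 := (Complex.continuous_re.tendsto 0).comp (hVb.comp hneg)
    have := a1.sub a2
    simpa using this
  have h5 := le_of_tendsto_of_tendsto (l1.add l4) (l2.add l3) hR
  rw [add_zero] at h5
  exact h5

/-- The kinetic inequality, matrix form. -/
theorem kinetic_matrix {U U' : ℝ → Matrix l n ℂ} (hU : HasWM U U')
    (h2 : ∀ a i, MemLp (fun x => U x a i) 2 volume)
    (h2' : ∀ a i, MemLp (fun x => U' x a i) 2 volume)
    (ho : (1 - Matrix.of fun i j => ∫ x, ((U x)ᴴ * U x) i j).PosSemidef) :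
    π ^ 2 * ∫ x, ((U x)ᴴ * U x * ((U x)ᴴ * U x) * ((U x)ᴴ * U x)).trace.re ≤
      4 * ∫ x, ((U' x)ᴴ * U' x).trace.re := by
  set I3 := ∫ x, ((U x)ᴴ * U x * ((U x)ᴴ * U x) * ((U x)ᴴ * U x)).trace.re with hI3
  set Ik := ∫ x, ((U' x)ᴴ * U' x).trace.re with hIk
  set J := ∫ x, (((U x)ᴴ * U x).trace.re) ^ 3 with hJ
  have hpi := Real.pi_pos
  have h1 : ∀ θ : ℝ, 0 < θ → θ < π / 2 → 4 * θ ^ 2 * I3 ≤ 4 * Ik := by
    intro θ hθ hθ2
    set δ := (π - 2 * θ) / 2 with hδdef
    have hδ : 0 < δ := by rw [hδdef]; linarith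
    have hθδ : 2 * θ + δ < π := by rw [hδdef]; linarith
    obtain ⟨M, hM0, hM⟩ := Fc_bound hθ hδ hθδ
    have h3 : ∀ ε : ℝ, 0 < ε → 4 * θ ^ 2 * I3 ≤ 4 * Ik + (Fintype.card n : ℝ) ^ 3 *
        (ε * (2 * M + ε) + 2 * ε) * J := by
      intro ε hε
      obtain ⟨P, hP⟩ := exists_poly hθ hδ hθδ hε
      exact kinetic_matrix_aux hU h2 h2' ho hθ hδ hθδ hM hM0 hε.le hP
    have h4 : Tendsto (fun ε : ℝ => 4 * Ik + (Fintype.card n : ℝ) ^ 3 *
        (ε * (2 * M + ε) + 2 * ε) * J) (𝓝[>] 0) (𝓝 (4 * Ik + (Fintype.card n : ℝ) ^ 3 *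
        ((0:ℝ) * (2 * M + 0) + 2 * 0) * J)) := by
      apply Tendsto.mono_left _ nhdsWithin_le_nhds
      apply Continuous.tendsto
      fun_prop
    have h5 := ge_of_tendsto h4 (by
      filter_upwards [self_mem_nhdsWithin] with ε hε
      exact h3 ε hε)
    simpa using h5
  have h6 : Tendsto (fun θ : ℝ => 4 * θ ^ 2 * I3) (𝓝[<] (π / 2)) (𝓝 (4 * (π / 2) ^ 2 * I3)) := by
    apply Tendsto.mono_left _ nhdsWithin_le_nhds
    apply Continuous.tendsto
    fun_prop
  have h7 := le_of_tendsto h6 (b := 4 * Ik) (by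
    have : ∀ᶠ θ : ℝ in 𝓝[<] (π / 2), 0 < θ :=
      (lt_mem_nhds (by positivity : (0:ℝ) < π / 2)).filter_mono nhdsWithin_le_nhds
    filter_upwards [this, self_mem_nhdsWithin] with θ hθ hθ2
    exact h1 θ hθ hθ2)
  calc π ^ 2 * I3 = 4 * (π / 2) ^ 2 * I3 := by ring
    _ ≤ 4 * Ik := h7

end

/-! ### the version for systems of functions -/

/-- the Gram matrix at `x` -/
noncomputable def gram {m N : ℕ} (f : Fin N → ℝ → EuclideanSpace ℂ (Fin m)) (x : ℝ) :
    Matrix (Fin N) (Fin N) ℂ := Matrix.of fun i j => inner ℂ (f i x) (f j x)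

/-- the matrix with columns `f j x` -/
def Umat {m N : ℕ} (f : Fin N → ℝ → EuclideanSpace ℂ (Fin m)) (x : ℝ) :
    Matrix (Fin m) (Fin N) ℂ := Matrix.of fun a j => f j x a

theorem gram_eq {m N : ℕ} (f : Fin N → ℝ → EuclideanSpace ℂ (Fin m)) (x : ℝ) :
    gram f x = (Umat f x)ᴴ * Umat f x := by
  ext i j
  simp only [gram, Umat, Matrix.of_apply, Matrix.mul_apply, Matrix.conjTranspose_apply,
    PiLp.inner_apply, RCLike.inner_apply, Complex.star_def]
  exact Finset.sum_congr rfl fun a _ => mul_comm _ _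

theorem IsH1.hasWM {m N : ℕ} {f f' : Fin N → ℝ → EuclideanSpace ℂ (Fin m)}
    (hf : ∀ j, IsH1 (f j) (f' j)) : HasWM (Umat f) (Umat f') := by
  intro a j
  have hint : ∀ x y, IntervalIntegrable (f' j) volume x y := fun x y =>
    (((hf j).memLp_deriv.locallyIntegrable (by norm_num)).integrableOn_isCompact
      isCompact_uIcc).intervalIntegrable
  refine ⟨fun x y => ?_, fun x y => ?_⟩
  · have h := hint x y
    rw [intervalIntegrable_iff] at h ⊢
    exact ((EuclideanSpace.proj a : EuclideanSpace ℂ (Fin m) →L[ℂ] ℂ).integrable_comp h)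
  · have h := ContinuousLinearMap.intervalIntegral_comp_comm
      (EuclideanSpace.proj a : EuclideanSpace ℂ (Fin m) →L[ℂ] ℂ) (hint x y)
    have h' : ∫ t in x..y, f' j t a = (∫ t in x..y, f' j t) a := h
    change f j y a - f j x a = ∫ t in x..y, f' j t a
    rw [h', ← (hf j).ftc x y]
    simp

theorem Umat_memLp {m N : ℕ} {f : Fin N → ℝ → EuclideanSpace ℂ (Fin m)}
    (hf : ∀ j, MemLp (f j) 2 volume) (a : Fin m) (j : Fin N) :
    MemLp (fun x => Umat f x a j) 2 volume :=
  (EuclideanSpace.proj a : EuclideanSpace ℂ (Fin m) →L[ℂ] ℂ).comp_memLp' (hf j)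

theorem Umat_trace {m N : ℕ} (f : Fin N → ℝ → EuclideanSpace ℂ (Fin m)) (x : ℝ) :
    ((Umat f x)ᴴ * Umat f x).trace.re = ∑ j, ‖f j x‖ ^ 2 := by
  rw [gram_trace]
  refine Finset.sum_congr rfl fun j _ => ?_
  rw [EuclideanSpace.norm_sq_eq]
  rfl

/-- Theorem K for suborthonormal systems. -/
theorem kinetic_sub {m N : ℕ} {f f' : Fin N → ℝ → EuclideanSpace ℂ (Fin m)}
    (hf : ∀ j, IsH1 (f j) (f' j))
    (ho : (1 - Matrix.of fun i j => ∫ x, inner ℂ (f i x) (f j x)).PosSemidef) :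
    (π ^ 2 / 4) * ∫ x, (Matrix.trace (gram f x ^ 3)).re ≤ ∫ x, ∑ j, ‖f' j x‖ ^ 2 := by
  have e0 : (Matrix.of fun i j => ∫ x, ((Umat f x)ᴴ * Umat f x) i j)
      = Matrix.of fun i j => ∫ x, inner ℂ (f i x) (f j x) := by
    ext i j
    simp only [Matrix.of_apply]
    refine integral_congr_ae (Eventually.of_forall fun x => ?_)
    exact (congrFun (congrFun (gram_eq f x) i) j).symm
  have h := kinetic_matrix (IsH1.hasWM hf) (Umat_memLp fun j => (hf j).memLp)
    (Umat_memLp fun j => (hf j).memLp_deriv) (by rw [e0]; exact ho)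
  simp only [Umat_trace] at h
  have e : ∀ x, (Umat f x)ᴴ * Umat f x * ((Umat f x)ᴴ * Umat f x) * ((Umat f x)ᴴ * Umat f x)
      = gram f x ^ 3 := by
    intro x
    rw [gram_eq]
    noncomm_ring
  simp only [e] at h
  linarith

/-- Theorem K. -/
theorem kinetic {m N : ℕ} {f f' : Fin N → ℝ → EuclideanSpace ℂ (Fin m)}
    (hf : ∀ j, IsH1 (f j) (f' j))
    (ho : ∀ i j, (∫ x, inner ℂ (f i x) (f j x)) = if i = j then (1 : ℂ) else 0) :
    (π ^ 2 / 4) * ∫ x, (Matrix.trace (gram f x ^ 3)).re ≤ ∫ x, ∑ j, ‖f' j x‖ ^ 2 := by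
  refine kinetic_sub hf ?_
  have : (Matrix.of fun i j => ∫ x, inner ℂ (f i x) (f j x)) = (1 : Matrix (Fin N) (Fin N) ℂ) := by
    ext i j
    rw [Matrix.of_apply, ho, Matrix.one_apply]
  rw [this, sub_self]
  exact Matrix.PosSemidef.zero

end Vale.Agent.P371
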