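import Vale.Agent.Lib.P371.PK

/-! # Lemma M: positivity of the cubic form -/

open Matrix Finset Filter Topology
open scoped ComplexOrder Real

namespace Vale.Agent.P371

variable {n : Type*} [Fintype n]

section kernels
variable {x : n → ℝ} (hx : ∀ i, 0 < x i ∧ x i < π / 2)
include hx

theorem pk_inv_one_sub {c : ℝ} (hc : π ≤ c) :
    PK (fun i j => 1 / (1 - (x i + x j) ^ 2 / c ^ 2)) := by
  have hpi := Real.pi_pos
  have h1 : PK (fun i j => 1 / ((c / 2 - x i) + (c / 2 - x j))) :=
    PK.cauchy fun i => by linarith [(hx i).2]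
  have h2 : PK (fun i j => 1 / ((c / 2 + x i) + (c / 2 + x j))) :=
    PK.cauchy fun i => by linarith [(hx i).1]
  refine ((h1.add h2).smul (c := c / 2) (by linarith)).congr fun i j => ?_
  have hi := hx i
  have hj := hx j
  have e1 : (c / 2 - x i) + (c / 2 - x j) = c - (x i + x j) := by ring
  have e2 : (c / 2 + x i) + (c / 2 + x j) = c + (x i + x j) := by ring
  rw [e1, e2]
  have f1 : c - (x i + x j) ≠ 0 := by
    have : 0 < c - (x i + x j) := by linarith
    exact this.ne'
  have f2 : c + (x i + x j) ≠ 0 := by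
    have : 0 < c + (x i + x j) := by linarith
    exact this.ne'
  have f3 : c ≠ 0 := by linarith
  have e3 : 1 - (x i + x j) ^ 2 / c ^ 2 = (c - (x i + x j)) * (c + (x i + x j)) / c ^ 2 := by
    field_simp; ring
  rw [e3]
  field_simp
  ring

omit [Fintype n] in
theorem w_lt (l : ℕ) (i j : n) : (x i + x j) ^ 2 / (π * ((l : ℝ) + 1)) ^ 2 < 1 := by
  have hpi := Real.pi_pos
  have hi := hx i
  have hj := hx j
  have hl : π ≤ π * ((l : ℝ) + 1) := by
    have : (0 : ℝ) ≤ l := Nat.cast_nonneg l
    nlinarith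
  rw [div_lt_one (by positivity)]
  exact pow_lt_pow_left₀ (by linarith) (by linarith) (by norm_num)

omit hx in
theorem euler_sin (u s : ℝ) : Tendsto (fun N : ℕ => u * s *
    ∏ l ∈ range N, (1 - u ^ 2 * (s ^ 2 / (π * ((l : ℝ) + 1)) ^ 2))) atTop (𝓝 (Real.sin (u * s))) := by
  have h := Real.tendsto_euler_sin_prod (u * s / π)
  have hpi := Real.pi_ne_zero
  have e : π * (u * s / π) = u * s := by field_simp
  rw [e] at h
  refine h.congr fun N => ?_
  congr 1
  refine prod_congr rfl fun l _ => ?_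
  have : ((l : ℝ) + 1) ≠ 0 := by positivity
  field_simp

/-- `1 / sin (x + y)` is positive semidefinite -/
theorem pk_inv_sin : PK (fun i j => 1 / Real.sin (x i + x j)) := by
  have hpi := Real.pi_pos
  have hk : ∀ N : ℕ, PK (fun i j => 1 / (x i + x j) *
      ∏ l ∈ range N, 1 / (1 - (x i + x j) ^ 2 / (π * ((l : ℝ) + 1)) ^ 2)) := by
    intro N
    refine (PK.cauchy fun i => (hx i).1).mul (PK.prod (fun l => pk_inv_one_sub hx ?_) N)
    have : (0 : ℝ) ≤ l := Nat.cast_nonneg l
    nlinarith
  refine PK.limit hk fun i j => ?_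
  have hi := hx i
  have hj := hx j
  have h := euler_sin 1 (x i + x j)
  have hs : Real.sin (1 * (x i + x j)) ≠ 0 := by
    rw [one_mul]
    exact (Real.sin_pos_of_pos_of_lt_pi (by linarith) (by linarith)).ne'
  have h2 := h.inv₀ hs
  simp only [one_mul, one_pow] at h2
  refine (h2.congr fun N => ?_).trans (by rw [one_div])
  rw [mul_inv, ← one_div, ← prod_inv_distrib]
  simp only [one_div]

/-- `sin (u (x + y)) / sin (x + y)` is positive semidefinite -/
theorem pk_sin_div {u : ℝ} (hu0 : 0 ≤ u) (hu1 : u ≤ 1) :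
    PK (fun i j => Real.sin (u * (x i + x j)) / Real.sin (x i + x j)) := by
  have hpi := Real.pi_pos
  have hk : ∀ N : ℕ, PK (fun i j => u *
      ∏ l ∈ range N, (u ^ 2 + (1 - u ^ 2) * (1 / (1 - (x i + x j) ^ 2 / (π * ((l : ℝ) + 1)) ^ 2)))) := by
    intro N
    refine PK.smul (PK.prod (fun l => ?_) N) hu0
    refine (PK.const (sq_nonneg u)).add ((pk_inv_one_sub hx ?_).smul (by nlinarith))
    have : (0 : ℝ) ≤ l := Nat.cast_nonneg l
    nlinarith
  refine PK.limit hk fun i j => ?_
  have hi := hx i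
  have hj := hx j
  have h := euler_sin 1 (x i + x j)
  have hu := euler_sin u (x i + x j)
  have hs : Real.sin (1 * (x i + x j)) ≠ 0 := by
    rw [one_mul]
    exact (Real.sin_pos_of_pos_of_lt_pi (by linarith) (by linarith)).ne'
  have h2 := hu.div h hs
  simp only [one_mul, one_pow] at h2
  refine h2.congr fun N => ?_
  simp only [Pi.div_apply]
  have e : (x i + x j) ≠ 0 := by
    have : 0 < x i + x j := by linarith
    exact this.ne'
  rw [mul_assoc u, mul_div_assoc, mul_div_mul_left _ _ e, ← prod_div_distrib]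
  congr 1
  refine prod_congr rfl fun l _ => ?_
  have hw := w_lt hx l i j
  set w := (x i + x j) ^ 2 / (π * ((l : ℝ) + 1)) ^ 2 with hw'
  have : 1 - w ≠ 0 := by
    have : 0 < 1 - w := by linarith
    exact this.ne'
  field_simp
  ring

/-- `sin (c + t (x + y)) / sin (x + y)` is positive semidefinite -/
theorem pk_kernel {t c : ℝ} (ht0 : 0 ≤ t) (ht1 : t ≤ 1) (hc0 : 0 ≤ c) (hc1 : c ≤ (1 - t) * π) :
    PK (fun i j => Real.sin (c + t * (x i + x j)) / Real.sin (x i + x j)) := by
  have hpi := Real.pi_pos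
  have hx' : ∀ i, 0 < π / 2 - x i ∧ π / 2 - x i < π / 2 := fun i =>
    ⟨by linarith [(hx i).2], by linarith [(hx i).1]⟩
  rcases eq_or_lt_of_le ht1 with h1 | h1
  · subst h1
    have : c = 0 := by nlinarith
    subst this
    refine (pk_sin_div hx zero_le_one le_rfl).congr fun i j => ?_
    rw [zero_add]
  rcases eq_or_lt_of_le ht0 with h0 | h0
  · subst h0
    have hs : 0 ≤ Real.sin c := Real.sin_nonneg_of_nonneg_of_le_pi hc0 (by linarith)
    refine ((pk_inv_sin hx).smul hs).congr fun i j => ?_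
    rw [zero_mul, add_zero]; ring
  · have hst : 0 < Real.sin (t * π) :=
      Real.sin_pos_of_pos_of_lt_pi (by positivity) (by nlinarith)
    have ha : 0 ≤ Real.sin c / Real.sin (t * π) :=
      div_nonneg (Real.sin_nonneg_of_nonneg_of_le_pi hc0 (by nlinarith)) hst.le
    have hb : 0 ≤ Real.sin (c + t * π) / Real.sin (t * π) :=
      div_nonneg (Real.sin_nonneg_of_nonneg_of_le_pi (by positivity) (by nlinarith)) hst.le
    have k1 := (pk_sin_div hx' ht0 ht1).smul ha
    have k2 := (pk_sin_div hx ht0 ht1).smul hb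
    refine (k1.add k2).congr fun i j => ?_
    have e1 : π / 2 - x i + (π / 2 - x j) = π - (x i + x j) := by ring
    rw [e1, Real.sin_pi_sub]
    set s := x i + x j with hs
    have e2 : Real.sin (c + t * s) = (Real.sin c * Real.sin (t * (π - s))
        + Real.sin (c + t * π) * Real.sin (t * s)) / Real.sin (t * π) := by
      rw [eq_div_iff hst.ne', mul_sub, Real.sin_sub, Real.sin_add, Real.sin_add]
      have := Real.sin_sq_add_cos_sq (t * π)
      ring
    rw [e2]
    ring

/-- `cos (r (x - y)) sin (x + y)` -/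
noncomputable def Gk (r a b : ℝ) : ℝ := Real.cos (r * (a - b)) * Real.sin (a + b)

omit hx in
omit [Fintype n] in
theorem Gk_comm (r a b : ℝ) : Gk r a b = Gk r b a := by
  unfold Gk
  rw [show r * (a - b) = -(r * (b - a)) by ring, Real.cos_neg, add_comm]

theorem pk_Q {r y : ℝ} (hr0 : 0 ≤ r) (hr1 : r ≤ 1) (hy0 : 0 < y) (hy1 : y < π / 2) :
    PK (fun i k => (Gk r (x i) y + Gk r (x k) y) / Real.sin (x i + x k)) := by
  have hpi := Real.pi_pos
  have k1 := (PK.cos fun i => ((1 + r) / 2) * x i).mul (pk_kernel hx (t := (1 + r) / 2)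
    (c := (1 - r) * y) (by linarith) (by linarith) (by nlinarith) (by nlinarith))
  have k2 := (PK.cos fun i => ((1 - r) / 2) * x i).mul (pk_kernel hx (t := (1 - r) / 2)
    (c := (1 + r) * y) (by linarith) (by linarith) (by nlinarith) (by nlinarith))
  refine (k1.add k2).congr fun i k => ?_
  have key : ∀ p q a b y : ℝ, Real.cos (p / 2 * a - p / 2 * b) * Real.sin (q * y + p / 2 * (a + b))
      = (Real.sin (p * a + q * y) + Real.sin (p * b + q * y)) / 2 := by
    intro p q a b y
    have e1 : p * a + q * y = (q * y + p / 2 * (a + b)) + (p / 2 * a - p / 2 * b) := by ring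
    have e2 : p * b + q * y = (q * y + p / 2 * (a + b)) - (p / 2 * a - p / 2 * b) := by ring
    rw [e1, e2, Real.sin_add (q * y + p / 2 * (a + b)), Real.sin_sub (q * y + p / 2 * (a + b))]
    ring
  have e0 : ∀ a : ℝ, Gk r a y = (Real.sin ((1 + r) * a + (1 - r) * y)
      + Real.sin ((1 - r) * a + (1 + r) * y)) / 2 := by
    intro a
    have e1 : (1 + r) * a + (1 - r) * y = (a + y) + r * (a - y) := by ring
    have e2 : (1 - r) * a + (1 + r) * y = (a + y) - r * (a - y) := by ring
    rw [Gk, e1, e2, Real.sin_add (a + y), Real.sin_sub (a + y)]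
    ring
  rw [mul_div_assoc', mul_div_assoc', key, key, e0, e0]
  ring

end kernels

/-! ### the function `sin D / D - cos D` -/

/-- `sin D / D - cos D` -/
noncomputable def hh (D : ℝ) : ℝ := if D = 0 then 0 else Real.sin D / D - Real.cos D

theorem hh_eq (D : ℝ) : hh D = D ^ 2 / 2 * ∫ r in (0:ℝ)..1, (1 - r ^ 2) * Real.cos (r * D) := by
  unfold hh
  split_ifs with h
  · rw [h]; simp
  · have hder : ∀ r ∈ Set.uIcc (0:ℝ) 1, HasDerivAt (fun r : ℝ => (1 - r ^ 2) * Real.sin (r * D) / D
        - 2 * r * Real.cos (r * D) / D ^ 2 + 2 * Real.sin (r * D) / D ^ 3)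
        ((1 - r ^ 2) * Real.cos (r * D)) r := by
      intro r _
      have h1 : HasDerivAt (fun r : ℝ => r * D) D r := by
        simpa using (hasDerivAt_id r).mul_const D
      have hs := h1.sin
      have hc := h1.cos
      have h2 : HasDerivAt (fun r : ℝ => 1 - r ^ 2) (-(2 * r)) r := by
        simpa using ((hasDerivAt_id r).pow 2).const_sub 1
      have h3 : HasDerivAt (fun r : ℝ => 2 * r) 2 r := by
        simpa using (hasDerivAt_id r).const_mul 2
      have := (((h2.mul hs).div_const D).sub ((h3.mul hc).div_const (D ^ 2))).add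
        ((hs.const_mul 2).div_const (D ^ 3))
      refine this.congr_deriv ?_
      field_simp
      ring
    rw [intervalIntegral.integral_eq_sub_of_hasDerivAt hder
      (by apply Continuous.intervalIntegrable; fun_prop)]
    simp
    field_simp
    ring

/-! ### permutations of triple sums -/

theorem sum3_swap23 (f : n → n → n → ℝ) :
    ∑ i, ∑ j, ∑ k, f i j k = ∑ i, ∑ j, ∑ k, f i k j :=
  sum_congr rfl fun _ _ => sum_comm

theorem sum3_swap13 (f : n → n → n → ℝ) :
    ∑ i, ∑ j, ∑ k, f i j k = ∑ i, ∑ j, ∑ k, f k j i := by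
  calc ∑ i, ∑ j, ∑ k, f i j k = ∑ j, ∑ i, ∑ k, f i j k := sum_comm
    _ = ∑ j, ∑ k, ∑ i, f i j k := sum_congr rfl fun j _ => sum_comm
    _ = ∑ k, ∑ j, ∑ i, f i j k := sum_comm

theorem sum3_sym (c : n → n → n → ℝ) (hcyc : ∀ i j k, c i j k = c j k i)
    (hrev : ∀ i j k, c i j k = c k j i) (x : n → ℝ) (G : n → n → ℝ) (hG : ∀ i j, G i j = G j i) :
    ∑ i, ∑ j, ∑ k, c i j k * ((x i - x k) ^ 2 * G i k)
      = ∑ i, ∑ j, ∑ k, c i j k * ((x j - x i) * (x j - x k) * (G i j + G k j)) := by
  have a1 : ∑ i, ∑ j, ∑ k, c i j k * ((x j - x i) * (x j - x k) * G k j)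
      = ∑ i, ∑ j, ∑ k, c i j k * ((x j - x i) * (x j - x k) * G i j) := by
    rw [sum3_swap13]
    refine sum_congr rfl fun i _ => sum_congr rfl fun j _ => sum_congr rfl fun k _ => ?_
    rw [← hrev i j k]; ring
  have a2 : ∑ i, ∑ j, ∑ k, c i j k * ((x j - x i) * (x j - x k) * G i j)
      = ∑ i, ∑ j, ∑ k, c i j k * ((x k - x i) * (x k - x j) * G i k) := by
    rw [sum3_swap23]
    refine sum_congr rfl fun i _ => sum_congr rfl fun j _ => sum_congr rfl fun k _ => ?_
    have : c i k j = c i j k := by rw [hrev i k j, ← hcyc i j k]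
    rw [this]
  have a3 : ∑ i, ∑ j, ∑ k, c i j k * ((x k - x i) * (x k - x j) * G i k)
      = ∑ i, ∑ j, ∑ k, c i j k * ((x i - x k) * (x i - x j) * G i k) := by
    rw [sum3_swap13]
    refine sum_congr rfl fun i _ => sum_congr rfl fun j _ => sum_congr rfl fun k _ => ?_
    rw [← hrev i j k, hG k i]
  have a4 : ∑ i, ∑ j, ∑ k, c i j k * ((x i - x k) ^ 2 * G i k)
      = ∑ i, ∑ j, ∑ k, c i j k * ((x i - x k) * (x i - x j) * G i k)
        + ∑ i, ∑ j, ∑ k, c i j k * ((x k - x i) * (x k - x j) * G i k) := by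
    simp only [← sum_add_distrib]
    refine sum_congr rfl fun i _ => sum_congr rfl fun j _ => sum_congr rfl fun k _ => ?_
    ring
  have a5 : ∑ i, ∑ j, ∑ k, c i j k * ((x j - x i) * (x j - x k) * (G i j + G k j))
      = ∑ i, ∑ j, ∑ k, c i j k * ((x j - x i) * (x j - x k) * G i j)
        + ∑ i, ∑ j, ∑ k, c i j k * ((x j - x i) * (x j - x k) * G k j) := by
    simp only [← sum_add_distrib]
    refine sum_congr rfl fun i _ => sum_congr rfl fun j _ => sum_congr rfl fun k _ => ?_
    ring
  rw [a4, a5, a1, ← a3, a2]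

/-! ### the cubic form -/

/-- For a fixed middle index the quadratic form is nonnegative. -/
theorem middle_nonneg {B : Matrix n n ℂ} (hB : B.PosSemidef) {x : n → ℝ}
    (hx : ∀ i, 0 < x i ∧ x i < π / 2) {r : ℝ} (hr0 : 0 ≤ r) (hr1 : r ≤ 1) (j : n) (v : n → ℂ) :
    0 ≤ ∑ k, ∑ i, ((star (v k)) * (B k i * v i)).re *
      ((Gk r (x k) (x j) + Gk r (x i) (x j)) / Real.sin (x k + x i)) := by
  have hQ : (Matrix.of fun i k => (((Gk r (x i) (x j) + Gk r (x k) (x j)) /
      Real.sin (x i + x k) : ℝ) : ℂ)).PosSemidef := pk_Q hx hr0 hr1 (hx j).1 (hx j).2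
  have h := (Matrix.PosSemidef.hadamard (𝕜 := ℂ) hB hQ).dotProduct_mulVec_nonneg v
  have h2 := (Complex.le_def.1 h).1
  simp only [dotProduct, Matrix.mulVec, Matrix.hadamard_apply, Matrix.of_apply, Complex.re_sum,
    Complex.zero_re, Pi.star_apply, mul_sum] at h2
  refine h2.trans (le_of_eq ?_)
  refine sum_congr rfl fun k _ => sum_congr rfl fun i _ => ?_
  rw [show star (v k) * (B k i * (((Gk r (x k) (x j) + Gk r (x i) (x j)) /
      Real.sin (x k + x i) : ℝ) : ℂ) * v i) = (star (v k) * (B k i * v i)) *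
      (((Gk r (x k) (x j) + Gk r (x i) (x j)) / Real.sin (x k + x i) : ℝ) : ℂ) by ring,
    Complex.re_mul_ofReal]

/-- Lemma M. -/
theorem key {B : Matrix n n ℂ} (hB : B.PosSemidef) {x : n → ℝ}
    (hx : ∀ i, 0 < x i ∧ x i < π / 2) :
    0 ≤ ∑ i, ∑ j, ∑ k, (B i j * B j k * B k i).re *
      (hh (x i - x k) / (Real.sin (x i + x j) * Real.sin (x j + x k))) := by
  have hpi := Real.pi_pos
  have hsin : ∀ i j, 0 < Real.sin (x i + x j) := fun i j =>
    Real.sin_pos_of_pos_of_lt_pi (by linarith [(hx i).1, (hx j).1]) (by linarith [(hx i).2, (hx j).2])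
  have hBh : ∀ i j, star (B i j) = B j i := fun i j => hB.isHermitian.apply j i
  set C : n → n → ℂ := fun i j => B i j / (Real.sin (x i + x j) : ℂ) with hC
  have hCh : ∀ i j, star (C i j) = C j i := by
    intro i j
    simp only [hC, star_div₀, hBh]
    rw [Complex.star_def, Complex.conj_ofReal, add_comm]
  set c : n → n → n → ℝ := fun i j k => (C i j * C j k * C k i).re with hc
  have hcyc : ∀ i j k, c i j k = c j k i := by
    intro i j k
    simp only [hc]
    congr 1; ring
  have hrev : ∀ i j k, c i j k = c k j i := by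
    intro i j k
    simp only [hc]
    rw [← Complex.conj_re]
    congr 1
    simp only [map_mul, ← Complex.star_def, hCh]
    ring
  have hS : ∀ r ∈ Set.Icc (0:ℝ) 1,
      0 ≤ ∑ i, ∑ j, ∑ k, c i j k * ((x i - x k) ^ 2 * Gk r (x i) (x k)) := by
    intro r hr
    rw [sum3_sym c hcyc hrev x (fun i k => Gk r (x i) (x k)) (fun i j => Gk_comm _ _ _), sum_comm]
    refine sum_nonneg fun j _ => ?_
    have h := middle_nonneg hB hx hr.1 hr.2 j (fun i => ((x j - x i : ℝ) : ℂ) * C i j)
    rw [sum_comm]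
    refine h.trans (le_of_eq (sum_congr rfl fun k _ => sum_congr rfl fun i _ => ?_))
    have e1 : star (((x j - x k : ℝ) : ℂ) * C k j) * (B k i * (((x j - x i : ℝ) : ℂ) * C i j))
        = (C i j * C j k * C k i) * (((x j - x i) * (x j - x k) * Real.sin (x k + x i) : ℝ) : ℂ) := by
      have hne : (Real.sin (x k + x i) : ℂ) ≠ 0 := by exact_mod_cast (hsin k i).ne'
      have : B k i = C k i * (Real.sin (x k + x i) : ℂ) := by
        simp only [hC]; field_simp
      rw [this, star_mul', hCh, Complex.star_def, Complex.conj_ofReal]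
      push_cast
      ring
    rw [e1, Complex.re_mul_ofReal]
    have hne := (hsin k i).ne'
    simp only [hc]
    field_simp
    ring
  have hI : ∑ i, ∑ j, ∑ k, (B i j * B j k * B k i).re *
      (hh (x i - x k) / (Real.sin (x i + x j) * Real.sin (x j + x k)))
      = (1 / 2) * ∫ r in (0:ℝ)..1, (1 - r ^ 2) *
        ∑ i, ∑ j, ∑ k, c i j k * ((x i - x k) ^ 2 * Gk r (x i) (x k)) := by
    have hint : ∀ i j k, IntervalIntegrable (fun r : ℝ => (1 - r ^ 2) *
        (c i j k * ((x i - x k) ^ 2 * Gk r (x i) (x k)))) MeasureTheory.volume 0 1 := by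
      intro i j k
      apply Continuous.intervalIntegrable
      unfold Gk
      fun_prop
    have e : ∀ r : ℝ, (1 - r ^ 2) * ∑ i, ∑ j, ∑ k, c i j k * ((x i - x k) ^ 2 * Gk r (x i) (x k))
        = ∑ i, ∑ j, ∑ k, (1 - r ^ 2) * (c i j k * ((x i - x k) ^ 2 * Gk r (x i) (x k))) := by
      intro r; simp only [mul_sum]
    simp only [e]
    rw [intervalIntegral.integral_finsetSum (fun i _ => ?_), mul_sum]
    · refine sum_congr rfl fun i _ => ?_
      rw [intervalIntegral.integral_finsetSum (fun j _ => ?_), mul_sum]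
      · refine sum_congr rfl fun j _ => ?_
        rw [intervalIntegral.integral_finsetSum (fun k _ => hint i j k), mul_sum]
        refine sum_congr rfl fun k _ => ?_
        have e1 : (fun r : ℝ => (1 - r ^ 2) * (c i j k * ((x i - x k) ^ 2 * Gk r (x i) (x k))))
            = fun r : ℝ => (c i j k * (x i - x k) ^ 2 * Real.sin (x i + x k)) *
              ((1 - r ^ 2) * Real.cos (r * (x i - x k))) := by
          funext r; unfold Gk; ring
        rw [e1, intervalIntegral.integral_const_mul, hh_eq]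
        have e2 : (B i j * B j k * B k i) = (C i j * C j k * C k i) *
            ((Real.sin (x i + x j) * Real.sin (x j + x k) * Real.sin (x i + x k) : ℝ) : ℂ) := by
          have n1 : (Real.sin (x i + x j) : ℂ) ≠ 0 := by exact_mod_cast (hsin i j).ne'
          have n2 : (Real.sin (x j + x k) : ℂ) ≠ 0 := by exact_mod_cast (hsin j k).ne'
          have n3 : (Real.sin (x k + x i) : ℂ) ≠ 0 := by exact_mod_cast (hsin k i).ne'
          simp only [hC]
          push_cast
          rw [show (x i : ℂ) + x k = x k + x i by ring]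
          push_cast at n1 n2 n3
          field_simp
        rw [e2, Complex.re_mul_ofReal]
        have n1 := (hsin i j).ne'
        have n2 := (hsin j k).ne'
        simp only [hc]
        field_simp
      · apply Continuous.intervalIntegrable
        unfold Gk
        fun_prop
    · apply Continuous.intervalIntegrable
      unfold Gk
      fun_prop
  rw [hI]
  refine mul_nonneg (by norm_num) (intervalIntegral.integral_nonneg zero_le_one fun r hr => ?_)
  exact mul_nonneg (by nlinarith [hr.1, hr.2]) (hS r hr)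

end Vale.Agent.P371
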