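import Vale.Agent.Lib.P371.DefOne
import Vale.Agent.Lib.P371.LowerBound

/-! # P371: the one-bound-state constant is at least its closed form -/

open MeasureTheory Matrix Filter Topology
open scoped ENNReal ComplexOrder ComplexConjugate

namespace Vale.Agent.P371

theorem LTone_le_LT (γ : ℝ) : LTone γ ≤ LT γ 1 := by
  unfold LTone LT
  refine iSup_mono fun W => iSup_mono fun hW => iSup_mono fun hne => ?_
  refine iSup_le fun lam => iSup_le fun h => ?_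
  refine ENNReal.div_le_div_right ?_ _
  unfold negMoment
  refine le_trans ?_ (le_iSup _ 1)
  refine le_trans ?_ (le_iSup _ lam)
  refine le_trans ?_ (le_iSup _ h)
  simp

theorem Lone_le_LTone {γ : ℝ} (hγ : 1 / 2 < γ) : ENNReal.ofReal (Lone γ) ≤ LTone γ := by
  obtain ⟨ν, rfl⟩ : ∃ ν, γ = ν + 1 / 2 := ⟨γ - 1 / 2, by ring⟩
  have hν : 0 < ν := by linarith
  have hp : ν + 1 / 2 + 1 / 2 = ν + 1 := by ring
  let i0 : Fin 1 := 0
  have hG1 : 0 < Real.Gamma (ν + 1) := Real.Gamma_pos_of_pos (by linarith)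
  have hG2 : 0 < Real.Gamma (ν + 1 + 1 / 2) := Real.Gamma_pos_of_pos (by linarith)
  have hP : 0 < (ν * (ν + 1)) ^ (ν + 1) *
      (√Real.pi * Real.Gamma (ν + 1) / Real.Gamma (ν + 1 + 1 / 2)) := by positivity
  have hne : potInt (ν + 1 / 2 + 1 / 2) (Wex ν i0) ≠ 0 := by
    rw [hp, potInt_Wex hν i0]
    exact (ENNReal.ofReal_pos.mpr hP).ne'
  have hpot : IsPotential (ν + 1 / 2 + 1 / 2) (Wex ν i0) := by
    rw [hp]; exact isPotential_Wex hν i0
  -- the eigenvalue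
  have hsys : IsNegEigenSystem (Wex ν i0) 1 (fun _ => -ν ^ 2) := by
    refine ⟨fun _ => by simp; positivity, ?_⟩
    set S : ℝ := ∫ x : ℝ, (Real.cosh x) ^ (-(2 * ν)) with hS
    have hSpos : 0 < S := integral_cosh_rpow_pos hν
    refine ⟨fun _ => vec i0 fun x => (√S)⁻¹ * gs ν x, fun _ => vec i0 fun x => (√S)⁻¹ * gs' ν x,
      fun _ => isEigenfunction_vec hν _ i0, ?_⟩
    intro i j
    rw [if_pos (Subsingleton.elim i j)]
    simp_rw [inner_vec]
    have h1 : ∀ x : ℝ, conj ((vec i0 (fun x => (√S)⁻¹ * gs ν x) x) i0) *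
        (((√S)⁻¹ * gs ν x : ℝ) : ℂ) = ((S⁻¹ * (Real.cosh x) ^ (-(2 * ν)) : ℝ) : ℂ) := by
      intro x
      rw [← gs_sq]
      have h2 : (vec i0 (fun x => (√S)⁻¹ * gs ν x) x) i0 = (((√S)⁻¹ * gs ν x : ℝ) : ℂ) := by
        simp [vec]
      rw [h2, Complex.conj_ofReal, ← Complex.ofReal_mul]
      congr 1
      have h3 : (√S)⁻¹ * (√S)⁻¹ = S⁻¹ := by
        rw [← mul_inv, Real.mul_self_sqrt hSpos.le]
      calc (√S)⁻¹ * gs ν x * ((√S)⁻¹ * gs ν x) = ((√S)⁻¹ * (√S)⁻¹) * gs ν x ^ 2 := by ring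
        _ = S⁻¹ * gs ν x ^ 2 := by rw [h3]
    simp_rw [h1]
    rw [integral_complex_ofReal, integral_const_mul, ← hS, inv_mul_cancel₀ hSpos.ne']
    simp
  have hval : Lone (ν + 1 / 2) = |(-ν ^ 2)| ^ (ν + 1 / 2) / ((ν * (ν + 1)) ^ (ν + 1) *
      (√Real.pi * Real.Gamma (ν + 1) / Real.Gamma (ν + 1 + 1 / 2))) := by
    unfold Lone Lcl
    have e1 : |(-ν ^ 2)| ^ (ν + 1 / 2) = ν ^ ν * ν ^ (ν + 1) := by
      rw [abs_neg, abs_of_nonneg (sq_nonneg ν), ← Real.rpow_natCast, ← Real.rpow_mul hν.le,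
        ← Real.rpow_add hν]
      congr 1; push_cast; ring
    have e2 : (ν * (ν + 1)) ^ (ν + 1) = ν ^ (ν + 1) * ((ν + 1) ^ ν * (ν + 1)) := by
      rw [Real.mul_rpow hν.le (by linarith), Real.rpow_add_one (show ν + 1 ≠ 0 by linarith)]
    have e3 : ν + 1 / 2 - 1 / 2 = ν := by ring
    have e4 : ν + 1 / 2 + 1 = ν + 1 + 1 / 2 := by ring
    have e5 : ν + 1 / 2 + 3 / 2 = (ν + 1) + 1 := by ring
    have e6 : Real.Gamma ((ν + 1) + 1) = (ν + 1) * Real.Gamma (ν + 1) :=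
      Real.Gamma_add_one (by linarith)
    rw [e1, e2, e3, hp, e4, e5, e6, Real.div_rpow hν.le (by linarith)]
    have h1 : 0 < ν ^ (ν + 1) := by positivity
    have h2 : 0 < (ν + 1) ^ ν := by positivity
    have h3 : 0 < √Real.pi := by positivity
    field_simp
  unfold LTone
  refine le_trans ?_ (le_iSup _ (Wex ν i0))
  refine le_trans ?_ (le_iSup _ hpot)
  refine le_trans ?_ (le_iSup _ hne)
  refine le_trans ?_ (le_iSup _ (fun _ => -ν ^ 2))
  refine le_trans ?_ (le_iSup _ hsys)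
  rw [hp, potInt_Wex hν i0, ← ENNReal.ofReal_div_of_pos hP, hval]

end Vale.Agent.P371
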