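import Mathlib

/-! Positive semidefinite real kernels on a finite set. -/

open Matrix Finset Filter Topology
open scoped ComplexOrder

namespace Vale.Agent.P371

variable {n : Type*} [Fintype n]

/-- positive semidefinite real kernels -/
def PK (k : n → n → ℝ) : Prop := (Matrix.of fun i j => ((k i j : ℝ) : ℂ)).PosSemidef

namespace PK

omit [Fintype n]

theorem congr {k l : n → n → ℝ} (hk : PK k) (h : ∀ i j, k i j = l i j) : PK l := by
  have : k = l := by funext i j; exact h i j
  rwa [← this]

theorem symm {k : n → n → ℝ} (hk : PK k) (i j : n) : k i j = k j i := by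
  have := hk.isHermitian.apply j i
  simpa using this

theorem mul {k l : n → n → ℝ} (hk : PK k) (hl : PK l) : PK (fun i j => k i j * l i j) := by
  have h := Matrix.PosSemidef.hadamard (𝕜 := ℂ) hk hl
  have e : (Matrix.of fun i j => ((k i j * l i j : ℝ) : ℂ)) =
      (Matrix.of fun i j => ((k i j : ℝ) : ℂ)) ⊙ (Matrix.of fun i j => ((l i j : ℝ) : ℂ)) := by
    ext i j
    simp
  unfold PK
  rw [e]
  exact h

theorem add {k l : n → n → ℝ} (hk : PK k) (hl : PK l) : PK (fun i j => k i j + l i j) := by
  have h := Matrix.PosSemidef.add hk hl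
  unfold PK
  convert h using 1
  ext i j
  simp

theorem smul {k : n → n → ℝ} (hk : PK k) {c : ℝ} (hc : 0 ≤ c) : PK (fun i j => c * k i j) := by
  have h := Matrix.PosSemidef.smul hk (a := (c : ℂ)) (by exact_mod_cast hc)
  unfold PK
  convert h using 1
  ext i j
  simp

variable [Fintype n]

theorem rank (v : n → ℝ) : PK (fun i j => v i * v j) := by
  have h := Matrix.posSemidef_vecMulVec_self_star (fun i => (v i : ℂ))
  unfold PK
  convert h using 1
  ext i j
  simp [Matrix.vecMulVec_apply]

theorem const {c : ℝ} (hc : 0 ≤ c) : PK (fun _ _ : n => c) := by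
  refine ((rank (fun _ : n => (1 : ℝ))).smul hc).congr fun i j => ?_
  ring

theorem prod {k : ℕ → n → n → ℝ} (hk : ∀ N, PK (k N)) (N : ℕ) :
    PK (fun i j => ∏ l ∈ range N, k l i j) := by
  induction N with
  | zero => simpa using const (n := n) zero_le_one
  | succ N ih => exact (ih.mul (hk N)).congr fun i j => by rw [prod_range_succ]

theorem sum {k : ℕ → n → n → ℝ} (hk : ∀ N, PK (k N)) (N : ℕ) :
    PK (fun i j => ∑ l ∈ range N, k l i j) := by
  induction N with
  | zero => simpa using const (n := n) le_rfl
  | succ N ih => exact (ih.add (hk N)).congr fun i j => by rw [sum_range_succ]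

theorem limit {k : ℕ → n → n → ℝ} {l : n → n → ℝ} (hk : ∀ N, PK (k N))
    (h : ∀ i j, Tendsto (fun N => k N i j) atTop (𝓝 (l i j))) : PK l := by
  unfold PK
  rw [Matrix.posSemidef_iff_dotProduct_mulVec]
  constructor
  · ext i j
    simp only [Matrix.conjTranspose_apply, Matrix.of_apply, Complex.star_def, Complex.conj_ofReal]
    have h1 := h j i
    have h2 := h i j
    have : (fun N => k N j i) = fun N => k N i j := by
      funext N; exact (hk N).symm j i
    rw [this] at h1
    rw [tendsto_nhds_unique h1 h2]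
  · intro x
    have h1 : Tendsto (fun N => star x ⬝ᵥ ((Matrix.of fun i j => ((k N i j : ℝ) : ℂ)) *ᵥ x)) atTop
        (𝓝 (star x ⬝ᵥ ((Matrix.of fun i j => ((l i j : ℝ) : ℂ)) *ᵥ x))) := by
      simp only [dotProduct, Matrix.mulVec, Matrix.of_apply]
      refine tendsto_finsetSum _ fun i _ => Tendsto.const_mul _ (tendsto_finsetSum _ fun j _ => ?_)
      exact Tendsto.mul_const _ ((Complex.continuous_ofReal.tendsto _).comp (h i j))
    exact ge_of_tendsto' h1 fun N => (hk N).dotProduct_mulVec_nonneg x

theorem geom {b : n → ℝ} (hb : ∀ i, |b i| < 1) : PK (fun i j => 1 / (1 - b i * b j)) := by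
  refine limit (k := fun N i j => ∑ l ∈ range N, b i ^ l * b j ^ l)
    (sum fun N => rank (fun i => b i ^ N)) fun i j => ?_
  have h1 : |b i * b j| < 1 := by
    rw [abs_mul]
    exact mul_lt_one_of_nonneg_of_lt_one_left (abs_nonneg _) (hb i) (hb j).le
  have h2 := (hasSum_geometric_of_abs_lt_one h1).tendsto_sum_nat
  simpa [mul_pow] using h2

theorem cauchy {a : n → ℝ} (ha : ∀ i, 0 < a i) : PK (fun i j => 1 / (a i + a j)) := by
  have hb : ∀ i, |(1 - a i) / (1 + a i)| < 1 := by
    intro i
    have := ha i
    rw [abs_div, abs_of_pos (by linarith : (0:ℝ) < 1 + a i), div_lt_one (by linarith), abs_lt]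
    constructor <;> linarith
  have h1 := geom hb
  have h2 := (h1.mul (rank fun i => 1 / (1 + a i))).smul (c := 2) (by norm_num)
  refine h2.congr fun i j => ?_
  have hi := ha i
  have hj := ha j
  have e1 : (1 + a i) ≠ 0 := by positivity
  have e2 : (1 + a j) ≠ 0 := by positivity
  have e3 : (a i + a j) ≠ 0 := by positivity
  have e4 : 1 - (1 - a i) / (1 + a i) * ((1 - a j) / (1 + a j))
      = 2 * (a i + a j) / ((1 + a i) * (1 + a j)) := by
    field_simp; ring
  rw [e4]
  field_simp

theorem cos (a : n → ℝ) : PK (fun i j => Real.cos (a i - a j)) := by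
  refine ((rank fun i => Real.cos (a i)).add (rank fun i => Real.sin (a i))).congr fun i j => ?_
  rw [Real.cos_sub]

end PK

end Vale.Agent.P371
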