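import Vale.Agent.Lib.P371.Poly

/-! # The regularised cotangent, polynomial approximation, the pointwise inequality -/

open Matrix Finset Filter Topology
open scoped ComplexOrder Real

namespace Vale.Agent.P371

/-- `F(s) = 2θ cot (θ s + δ)` -/
noncomputable def Fc (θ δ s : ℝ) : ℝ := 2 * θ * (Real.cos (θ * s + δ) / Real.sin (θ * s + δ))

/-- `F'(s)` -/
noncomputable def Fc' (θ δ s : ℝ) : ℝ := -(2 * θ ^ 2) / Real.sin (θ * s + δ) ^ 2

/-- divided differences of `F` -/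
noncomputable def Fdd (θ δ s t : ℝ) : ℝ :=
  if s = t then Fc' θ δ s else (Fc θ δ s - Fc θ δ t) / (s - t)

section
variable {θ δ : ℝ} (hθ : 0 < θ) (hδ : 0 < δ) (h2 : 2 * θ + δ < π)
include hθ hδ h2

theorem sin_pos' {s : ℝ} (hs : s ∈ Set.Icc (0:ℝ) 2) : 0 < Real.sin (θ * s + δ) := by
  apply Real.sin_pos_of_pos_of_lt_pi
  · have := mul_nonneg hθ.le hs.1; linarith
  · have : θ * s ≤ θ * 2 := mul_le_mul_of_nonneg_left hs.2 hθ.le
    linarith

omit hδ h2 in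
theorem weight_identity {s t : ℝ} (hs : 0 < Real.sin (θ * s + δ)) (ht : 0 < Real.sin (θ * t + δ)) :
    Fc θ δ s * Fc θ δ t + 2 * Fdd θ δ s t + 4 * θ ^ 2
      = -(4 * θ ^ 2) * (hh (θ * (s - t)) / (Real.sin (θ * s + δ) * Real.sin (θ * t + δ))) := by
  unfold Fdd hh
  split_ifs with h1 h3 h3
  · subst h1
    unfold Fc Fc'
    have := Real.sin_sq_add_cos_sq (θ * s + δ)
    have hs' := hs.ne'
    field_simp
    nlinarith
  · exfalso; apply h3; rw [h1, sub_self, mul_zero]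
  · exfalso
    rcases mul_eq_zero.1 h3 with h | h
    · exact hθ.ne' h
    · exact h1 (sub_eq_zero.1 h)
  · have e : θ * (s - t) = (θ * s + δ) - (θ * t + δ) := by ring
    rw [e, Real.sin_sub, Real.cos_sub, ← e]
    have hs' := hs.ne'
    have ht' := ht.ne'
    have hst : s - t ≠ 0 := sub_ne_zero.2 h1
    unfold Fc
    field_simp
    ring

theorem Fc_hasDerivAt {s : ℝ} (hs : s ∈ Set.Icc (0:ℝ) 2) : HasDerivAt (Fc θ δ) (Fc' θ δ s) s := by
  have hsin := sin_pos' hθ hδ h2 hs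
  have h1 : HasDerivAt (fun s : ℝ => θ * s + δ) θ s := by
    simpa using ((hasDerivAt_id s).const_mul θ).add_const δ
  have h := (h1.cos.div h1.sin hsin.ne').const_mul (2 * θ)
  refine h.congr_deriv ?_
  unfold Fc'
  have := Real.sin_sq_add_cos_sq (θ * s + δ)
  have hs' := hsin.ne'
  field_simp
  nlinarith

theorem Fc_bound : ∃ M : ℝ, 0 ≤ M ∧ ∀ s ∈ Set.Icc (0:ℝ) 2, |Fc θ δ s| ≤ M := by
  have hc : ContinuousOn (Fc θ δ) (Set.Icc 0 2) := fun s hs =>
    (Fc_hasDerivAt hθ hδ h2 hs).continuousAt.continuousWithinAt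
  obtain ⟨M, hM⟩ := isCompact_Icc.exists_bound_of_continuousOn hc
  exact ⟨max M 0, le_max_right _ _, fun s hs => (hM s hs).trans (le_max_left _ _)⟩

omit hθ hδ h2 in
theorem exists_antideriv (q : Polynomial ℝ) : ∃ Q : Polynomial ℝ, Q.derivative = q := by
  refine ⟨∑ k ∈ range (q.natDegree + 1), Polynomial.C (q.coeff k / (k + 1)) * Polynomial.X ^ (k + 1), ?_⟩
  conv_rhs => rw [q.as_sum_range_C_mul_X_pow]
  rw [Polynomial.derivative_sum]
  refine sum_congr rfl fun k _ => ?_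
  rw [Polynomial.derivative_C_mul_X_pow]
  have : ((k : ℝ) + 1) ≠ 0 := by positivity
  rw [Nat.add_sub_cancel]
  congr 2
  push_cast
  field_simp

theorem exists_poly {ε : ℝ} (hε : 0 < ε) : ∃ P : Polynomial ℝ, ∀ s ∈ Set.Icc (0:ℝ) 2,
    |P.eval s - Fc θ δ s| ≤ ε ∧ |P.derivative.eval s - Fc' θ δ s| ≤ ε := by
  have hc : ContinuousOn (Fc' θ δ) (Set.Icc 0 2) := by
    unfold Fc'
    refine ContinuousOn.div continuousOn_const (by fun_prop) fun s hs => ?_
    exact pow_ne_zero _ (sin_pos' hθ hδ h2 hs).ne'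
  obtain ⟨q, hq⟩ := exists_polynomial_near_of_continuousOn 0 2 (Fc' θ δ) hc (ε / 2) (by linarith)
  obtain ⟨Q, hQ⟩ := exists_antideriv q
  set P : Polynomial ℝ := Q + Polynomial.C (Fc θ δ 0 - Q.eval 0) with hP
  have hP' : P.derivative = q := by rw [hP]; simp [hQ]
  have hP0 : P.eval 0 = Fc θ δ 0 := by rw [hP]; simp
  refine ⟨P, fun s hs => ⟨?_, ?_⟩⟩
  · have hd : ∀ x ∈ Set.Icc (0:ℝ) 2, HasDerivWithinAt (fun s => P.eval s - Fc θ δ s)
        (q.eval x - Fc' θ δ x) (Set.Icc 0 2) x := by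
      intro x hx
      have h1 := P.hasDerivAt x
      rw [hP'] at h1
      exact (h1.sub (Fc_hasDerivAt hθ hδ h2 hx)).hasDerivWithinAt
    have hb : ∀ x ∈ Set.Icc (0:ℝ) 2, ‖q.eval x - Fc' θ δ x‖ ≤ ε / 2 := fun x hx => (hq x hx).le
    have h3 := (convex_Icc (0:ℝ) 2).norm_image_sub_le_of_norm_hasDerivWithin_le hd hb
      (⟨le_rfl, by norm_num⟩ : (0:ℝ) ∈ Set.Icc (0:ℝ) 2) hs
    simp only [hP0, sub_self, sub_zero, Real.norm_eq_abs] at h3
    refine h3.trans ?_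
    rw [abs_of_nonneg hs.1]
    nlinarith [hs.2]
  · rw [hP']
    exact ((hq s hs).le).trans (by linarith)

theorem pd_near {P : Polynomial ℝ} {ε : ℝ} (hP : ∀ s ∈ Set.Icc (0:ℝ) 2,
    |P.eval s - Fc θ δ s| ≤ ε ∧ |P.derivative.eval s - Fc' θ δ s| ≤ ε) {s t : ℝ}
    (hs : s ∈ Set.Icc (0:ℝ) 2) (ht : t ∈ Set.Icc (0:ℝ) 2) : |pd P s t - Fdd θ δ s t| ≤ ε := by
  unfold Fdd
  split_ifs with h
  · subst h
    rw [pd_self]
    exact (hP s hs).2
  · have hst : s - t ≠ 0 := sub_ne_zero.2 h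
    have h1 : pd P s t = (P.eval s - P.eval t) / (s - t) := by
      rw [eq_div_iff hst, pd_mul_sub]
    rw [h1, ← sub_div, abs_div, div_le_iff₀ (abs_pos.2 hst)]
    have hd : ∀ x ∈ Set.Icc (0:ℝ) 2, HasDerivWithinAt (fun s => P.eval s - Fc θ δ s)
        (P.derivative.eval x - Fc' θ δ x) (Set.Icc 0 2) x := by
      intro x hx
      exact ((P.hasDerivAt x).sub (Fc_hasDerivAt hθ hδ h2 hx)).hasDerivWithinAt
    have h3 := (convex_Icc (0:ℝ) 2).norm_image_sub_le_of_norm_hasDerivWithin_le hd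
      (fun x hx => (hP x hx).2) ht hs
    rw [Real.norm_eq_abs, Real.norm_eq_abs] at h3
    refine le_trans (le_of_eq ?_) h3
    congr 1
    ring

/-- the error of the weight -/
theorem weight_near {P : Polynomial ℝ} {ε M : ℝ} (hM : ∀ s ∈ Set.Icc (0:ℝ) 2, |Fc θ δ s| ≤ M)
    (hM0 : 0 ≤ M) (hε : 0 ≤ ε)
    (hP : ∀ s ∈ Set.Icc (0:ℝ) 2,
      |P.eval s - Fc θ δ s| ≤ ε ∧ |P.derivative.eval s - Fc' θ δ s| ≤ ε) {s t : ℝ}
    (hs : s ∈ Set.Icc (0:ℝ) 2) (ht : t ∈ Set.Icc (0:ℝ) 2) :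
    |(P.eval s * P.eval t + 2 * pd P s t) - (Fc θ δ s * Fc θ δ t + 2 * Fdd θ δ s t)|
      ≤ ε * (2 * M + ε) + 2 * ε := by
  have h1 := (hP s hs).1
  have h2' := (hP t ht).1
  have h3 := pd_near hθ hδ h2 hP hs ht
  have h4 := hM s hs
  have h5 := hM t ht
  have h6 : |P.eval t| ≤ M + ε := by
    have : P.eval t = Fc θ δ t + (P.eval t - Fc θ δ t) := by ring
    rw [this]
    exact (abs_add_le _ _).trans (add_le_add h5 h2')
  have e : (P.eval s * P.eval t + 2 * pd P s t) - (Fc θ δ s * Fc θ δ t + 2 * Fdd θ δ s t)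
      = ((P.eval s - Fc θ δ s) * P.eval t + Fc θ δ s * (P.eval t - Fc θ δ t))
        + 2 * (pd P s t - Fdd θ δ s t) := by ring
  rw [e]
  refine (abs_add_le _ _).trans ?_
  have h7 : |(P.eval s - Fc θ δ s) * P.eval t + Fc θ δ s * (P.eval t - Fc θ δ t)|
      ≤ ε * (M + ε) + M * ε := by
    refine (abs_add_le _ _).trans ?_
    rw [abs_mul, abs_mul]
    gcongr
  have h8 : |2 * (pd P s t - Fdd θ δ s t)| ≤ 2 * ε := by
    rw [abs_mul, abs_two]
    linarith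
  nlinarith

end

section
variable {n : Type*} [Fintype n]

theorem abs_cub_le {B : Matrix n n ℂ} {τ : ℝ} (hτ : ∀ i j, ‖B i j‖ ≤ τ) {w : n → n → n → ℝ}
    {ε : ℝ} (hw : ∀ i j k, |w i j k| ≤ ε) :
    |cub B w| ≤ (Fintype.card n : ℝ) ^ 3 * τ ^ 3 * ε := by
  classical
  unfold cub
  have hterm : ∀ i j k, |(B i j * B j k * B k i).re * w i j k| ≤ τ ^ 3 * ε := by
    intro i j k
    rw [abs_mul]
    have h1 : |(B i j * B j k * B k i).re| ≤ τ ^ 3 := by
      refine (Complex.abs_re_le_norm _).trans ?_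
      rw [norm_mul, norm_mul]
      calc ‖B i j‖ * ‖B j k‖ * ‖B k i‖ ≤ τ * τ * τ := by
            have h0 := (norm_nonneg _).trans (hτ i j)
            gcongr <;> exact hτ _ _
        _ = τ ^ 3 := by ring
    have h2 := (abs_nonneg _).trans h1
    gcongr
    exact hw i j k
  calc |∑ i, ∑ j, ∑ k, (B i j * B j k * B k i).re * w i j k|
      ≤ ∑ i, ∑ j, ∑ k, |(B i j * B j k * B k i).re * w i j k| := by
        refine (abs_sum_le_sum_abs _ _).trans (sum_le_sum fun i _ => ?_)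
        refine (abs_sum_le_sum_abs _ _).trans (sum_le_sum fun j _ => ?_)
        exact abs_sum_le_sum_abs _ _
    _ ≤ ∑ i : n, ∑ j : n, ∑ k : n, τ ^ 3 * ε :=
        sum_le_sum fun i _ => sum_le_sum fun j _ => sum_le_sum fun k _ => hterm i j k
    _ = (Fintype.card n : ℝ) ^ 3 * τ ^ 3 * ε := by
        simp only [sum_const, card_univ, nsmul_eq_mul]; ring

end

end Vale.Agent.P371
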