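import Vale.Agent.Lib.P371.Pointwise

/-! # The pointwise inequality -/

open Matrix Finset Filter Topology
open scoped ComplexOrder Real

namespace Vale.Agent.P371

section
variable {n l : Type*} [Fintype n] [DecidableEq n] [Fintype l]

omit [DecidableEq n] in
theorem gram_trace (U : Matrix l n ℂ) : (Uᴴ * U).trace.re = ∑ i, ∑ a, ‖U a i‖ ^ 2 := by
  simp only [Matrix.trace, Matrix.diag_apply, Matrix.mul_apply, Matrix.conjTranspose_apply,
    Complex.re_sum]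
  refine sum_congr rfl fun i _ => sum_congr rfl fun a _ => ?_
  rw [Complex.star_def, ← Complex.normSq_eq_conj_mul_self, Complex.ofReal_re, Complex.normSq_eq_norm_sq]

omit [DecidableEq n] in
theorem gram_entry_le (U : Matrix l n ℂ) (i j : n) : ‖(Uᴴ * U) i j‖ ≤ (Uᴴ * U).trace.re := by
  rw [gram_trace, Matrix.mul_apply]
  have hcol : ∀ i : n, ∑ a, ‖U a i‖ ^ 2 ≤ ∑ i, ∑ a, ‖U a i‖ ^ 2 := fun i =>
    single_le_sum (f := fun i => ∑ a, ‖U a i‖ ^ 2) (fun i _ => sum_nonneg fun a _ => sq_nonneg _)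
      (mem_univ i)
  calc ‖∑ a, Uᴴ i a * U a j‖ ≤ ∑ a, ‖Uᴴ i a * U a j‖ := norm_sum_le _ _
    _ ≤ ∑ a, (‖U a i‖ ^ 2 + ‖U a j‖ ^ 2) / 2 := by
        refine sum_le_sum fun a _ => ?_
        rw [Matrix.conjTranspose_apply, norm_mul, norm_star]
        nlinarith [sq_nonneg (‖U a i‖ - ‖U a j‖)]
    _ = ((∑ a, ‖U a i‖ ^ 2) + ∑ a, ‖U a j‖ ^ 2) / 2 := by
        rw [← sum_div, sum_add_distrib]
    _ ≤ ∑ i, ∑ a, ‖U a i‖ ^ 2 := by
        have := hcol i
        have := hcol j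
        linarith

/-- The pointwise inequality. -/
theorem pointwise {θ δ : ℝ} (hθ : 0 < θ) (hδ : 0 < δ) (h2 : 2 * θ + δ < π)
    {P : Polynomial ℝ} {ε M : ℝ} (hM : ∀ s ∈ Set.Icc (0:ℝ) 2, |Fc θ δ s| ≤ M)
    (hM0 : 0 ≤ M) (hε : 0 ≤ ε)
    (hP : ∀ s ∈ Set.Icc (0:ℝ) 2,
      |P.eval s - Fc θ δ s| ≤ ε ∧ |P.derivative.eval s - Fc' θ δ s| ≤ ε)
    {A : Matrix n n ℂ} (hA : A.PosSemidef) (hA1 : (1 - A).PosSemidef) (U U' : Matrix l n ℂ) :
    4 * θ ^ 2 * ((Uᴴ * U) * (Uᴴ * U) * (Uᴴ * U)).trace.re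
      + (((U'ᴴ * U + Uᴴ * U') * PhiP P A (Uᴴ * U)).trace.re
      + ((Uᴴ * U) * (PhiP P A (U'ᴴ * U + Uᴴ * U') + EP P A (Uᴴ * U))).trace.re)
      ≤ 4 * (U'ᴴ * U').trace.re
        + (Fintype.card n : ℝ) ^ 3 * (Uᴴ * U).trace.re ^ 3 * (ε * (2 * M + ε) + 2 * ε) := by
  set B : Matrix n n ℂ := Uᴴ * U with hBdef
  set B' : Matrix n n ℂ := U'ᴴ * U + Uᴴ * U' with hB'def
  set Φ : Matrix n n ℂ := PhiP P A B with hΦdef
  have hAh : Aᴴ = A := hA.isHermitian
  have hBh : Bᴴ = B := by rw [hBdef]; simp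
  have hΦh : Φᴴ = Φ := PhiP_conjTranspose P hAh hBh
  -- completing the square
  have hsq : 0 ≤ (((2 : ℂ) • U' - U * Φ)ᴴ * ((2 : ℂ) • U' - U * Φ)).trace.re :=
    (Complex.le_def.1 (Matrix.posSemidef_conjTranspose_mul_self ((2 : ℂ) • U' - U * Φ)).trace_nonneg).1
  have hexp : (((2 : ℂ) • U' - U * Φ)ᴴ * ((2 : ℂ) • U' - U * Φ)).trace.re
      = 4 * (U'ᴴ * U').trace.re - 2 * (B' * Φ).trace.re + (Φ * B * Φ).trace.re := by
    have e1 : ((2 : ℂ) • U' - U * Φ)ᴴ * ((2 : ℂ) • U' - U * Φ)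
        = (4 : ℂ) • (U'ᴴ * U') - (2 : ℂ) • (U'ᴴ * U * Φ) - (2 : ℂ) • (Φ * (Uᴴ * U')) + Φ * B * Φ := by
      rw [Matrix.conjTranspose_sub, Matrix.conjTranspose_smul, Matrix.conjTranspose_mul, hΦh]
      have : star (2 : ℂ) = 2 := by simp
      rw [this, Matrix.sub_mul, Matrix.mul_sub, Matrix.mul_sub, Matrix.smul_mul, Matrix.mul_smul,
        smul_smul, Matrix.smul_mul, Matrix.mul_smul, hBdef]
      simp only [Matrix.mul_assoc]
      norm_num
      abel
    have e2 : (Φ * (Uᴴ * U')).trace = (Uᴴ * U' * Φ).trace := Matrix.trace_mul_comm _ _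
    rw [e1, hB'def, Matrix.trace_add, Matrix.trace_sub, Matrix.trace_sub, Matrix.trace_smul,
      Matrix.trace_smul, Matrix.trace_smul, e2, Matrix.add_mul, Matrix.trace_add]
    simp only [Complex.add_re, Complex.sub_re, smul_eq_mul, Complex.mul_re, Complex.re_ofNat,
      Complex.im_ofNat]
    ring
  have htr : (B * PhiP P A B').trace = (B' * Φ).trace := by
    rw [trace_PhiP, Matrix.trace_mul_comm]
  -- diagonalisation
  set Q : Matrix n n ℂ := (hA.isHermitian.eigenvectorUnitary : Matrix n n ℂ) with hQdef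
  have hQ : Qᴴ * Q = 1 := by
    have := Unitary.coe_star_mul_self hA.isHermitian.eigenvectorUnitary
    simpa [Matrix.star_eq_conjTranspose] using this
  have hQ' : Q * Qᴴ = 1 := mul_eq_one_comm.1 hQ
  set a : n → ℝ := hA.isHermitian.eigenvalues with hadef
  have hdiag : Qᴴ * A * Q = Matrix.diagonal fun i => (a i : ℂ) := by
    have := hA.isHermitian.conjStarAlgAut_star_eigenvectorUnitary
    rw [Unitary.conjStarAlgAut_star_apply] at this
    exact this
  have ha0 : ∀ i, 0 ≤ a i := fun i => hA.eigenvalues_nonneg i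
  have ha1 : ∀ i, a i ≤ 1 := by
    intro i
    have h1 := hA1.conjTranspose_mul_mul_same Q
    have h3 : Qᴴ * (1 - A) * Q = 1 - Matrix.diagonal fun i => (a i : ℂ) := by
      rw [Matrix.mul_sub, Matrix.sub_mul, Matrix.mul_one, hQ, hdiag]
    rw [h3] at h1
    have h4 := (Complex.le_def.1 (h1.diag_nonneg (i := i))).1
    simp at h4
    exact h4
  set Bt : Matrix n n ℂ := Qᴴ * B * Q with hBtdef
  have hBtU : Bt = (U * Q)ᴴ * (U * Q) := by
    rw [hBtdef, hBdef, Matrix.conjTranspose_mul]; simp only [Matrix.mul_assoc]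
  have hBtpsd : Bt.PosSemidef := by rw [hBtU]; exact Matrix.posSemidef_conjTranspose_mul_self _
  have hBth : Btᴴ = Bt := hBtpsd.isHermitian
  have htrconj : ∀ X : Matrix n n ℂ, (Qᴴ * X * Q).trace = X.trace := by
    intro X
    rw [Matrix.trace_mul_comm, ← Matrix.mul_assoc, hQ', Matrix.one_mul]
  have key : ∀ X Y : Matrix n n ℂ, Qᴴ * X * Q * (Qᴴ * Y * Q) = Qᴴ * (X * Y) * Q := by
    intro X Y
    calc Qᴴ * X * Q * (Qᴴ * Y * Q) = Qᴴ * X * (Q * Qᴴ) * Y * Q := by noncomm_ring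
      _ = _ := by rw [hQ']; noncomm_ring
  have hcub : (B * EP P A B).trace.re + (Φ * B * Φ).trace.re = cub Bt (wP P a) := by
    rw [← cub_wP_diagonal P a hBth, ← hdiag, hBtdef, EP_conj P A B Q hQ, PhiP_conj P A B Q hQ]
    rw [key, key, key, htrconj, htrconj]
  have htrBt : Bt.trace.re = B.trace.re := by rw [hBtdef, htrconj]
  have hcub3 : (Bt * Bt * Bt).trace.re = (B * B * B).trace.re := by
    rw [hBtdef, key, key, htrconj]
  have hs : ∀ i j, a i + a j ∈ Set.Icc (0:ℝ) 2 := fun i j =>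
    ⟨add_nonneg (ha0 i) (ha0 j), by linarith [ha1 i, ha1 j]⟩
  have hx : ∀ i, 0 < θ * a i + δ / 2 ∧ θ * a i + δ / 2 < π / 2 := by
    intro i
    have h1 := mul_nonneg hθ.le (ha0 i)
    have h3 : θ * a i ≤ θ := by
      have := mul_le_mul_of_nonneg_left (ha1 i) hθ.le
      linarith
    constructor <;> linarith
  have hkey := Vale.Agent.P371.key hBtpsd hx
  -- the error
  set err : n → n → n → ℝ := fun i j k => wP P a i j k -
    (Fc θ δ (a i + a j) * Fc θ δ (a j + a k) + 2 * Fdd θ δ (a i + a j) (a j + a k)) with herr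
  have herrb : ∀ i j k, |err i j k| ≤ ε * (2 * M + ε) + 2 * ε := fun i j k =>
    weight_near hθ hδ h2 hM hM0 hε hP (hs i j) (hs j k)
  have hτ : ∀ i j, ‖Bt i j‖ ≤ B.trace.re := by
    intro i j
    rw [← htrBt, hBtU]
    exact gram_entry_le (U * Q) i j
  have herr2 := abs_cub_le hτ herrb
  have hsplit : cub Bt (wP P a) = -(4 * θ ^ 2) * (∑ i, ∑ j, ∑ k, (Bt i j * Bt j k * Bt k i).re *
      (hh ((θ * a i + δ / 2) - (θ * a k + δ / 2)) /
        (Real.sin ((θ * a i + δ / 2) + (θ * a j + δ / 2)) *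
          Real.sin ((θ * a j + δ / 2) + (θ * a k + δ / 2))))) + (-(4 * θ ^ 2)) * cub Bt (fun _ _ _ => 1)
        + cub Bt err := by
    change _ = -(4 * θ ^ 2) * cub Bt (fun i j k => (hh ((θ * a i + δ / 2) - (θ * a k + δ / 2)) /
        (Real.sin ((θ * a i + δ / 2) + (θ * a j + δ / 2)) *
          Real.sin ((θ * a j + δ / 2) + (θ * a k + δ / 2))))) + _ + _
    rw [← cub_smul, ← cub_smul, ← cub_add, ← cub_add]
    congr 1
    funext i j k
    have hw := weight_identity (δ := δ) hθ (sin_pos' hθ hδ h2 (hs i j)) (sin_pos' hθ hδ h2 (hs j k))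
    rw [show θ * (a i + a j - (a j + a k)) = (θ * a i + δ / 2) - (θ * a k + δ / 2) by ring,
      show θ * (a i + a j) + δ = (θ * a i + δ / 2) + (θ * a j + δ / 2) by ring,
      show θ * (a j + a k) + δ = (θ * a j + δ / 2) + (θ * a k + δ / 2) by ring] at hw
    rw [← hw, herr]
    ring
  rw [cub_one, hcub3] at hsplit
  rw [Matrix.mul_add, Matrix.trace_add, Complex.add_re, htr]
  rw [hexp] at hsq
  have h5 : 0 ≤ 4 * θ ^ 2 := by positivity
  have h6 := mul_nonneg h5 hkey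
  have h7 := (abs_le.1 herr2).2
  linarith

end

end Vale.Agent.P371
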