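import Vale.Agent.Lib.P371.Key

/-! # Polynomial functions of `A` acting on `B`, and the pointwise inequality -/

open Matrix Finset Filter Topology
open scoped ComplexOrder Real

namespace Vale.Agent.P371

section alg
variable {n : Type*} [Fintype n]

/-- `L_A ^ k W` where `L_A H = A H + H A` -/
def LX (A : Matrix n n ℂ) : ℕ → Matrix n n ℂ → Matrix n n ℂ
  | 0, W => W
  | k + 1, W => A * LX A k W + LX A k W * A

/-- the derivative of `A ↦ L_A ^ k B` in the direction `B` -/
def LE (A B : Matrix n n ℂ) : ℕ → Matrix n n ℂ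
  | 0 => 0
  | k + 1 => B * LX A k B + LX A k B * B + (A * LE A B k + LE A B k * A)

theorem trace_LX (A Z W : Matrix n n ℂ) (k : ℕ) :
    (Z * LX A k W).trace = (LX A k Z * W).trace := by
  induction k generalizing Z with
  | zero => rfl
  | succ k ih =>
    have key : ∀ (k : ℕ) (Z : Matrix n n ℂ), LX A k (A * Z + Z * A) = A * LX A k Z + LX A k Z * A := by
      intro k
      induction k with
      | zero => intro Z; rfl
      | succ k ih2 => intro Z; simp only [LX, ih2]
    calc (Z * (A * LX A k W + LX A k W * A)).trace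
        = ((A * Z + Z * A) * LX A k W).trace := by
          rw [mul_add, Matrix.trace_add, Matrix.add_mul, Matrix.trace_add, ← Matrix.mul_assoc Z A,
            ← Matrix.mul_assoc Z, Matrix.trace_mul_comm (Z * LX A k W) A, ← Matrix.mul_assoc,
            add_comm]
      _ = (LX A k (A * Z + Z * A) * W).trace := ih _
      _ = _ := by rw [key]; rfl

theorem LX_conjTranspose {A W : Matrix n n ℂ} (hA : Aᴴ = A) (hW : Wᴴ = W) (k : ℕ) :
    (LX A k W)ᴴ = LX A k W := by
  induction k with
  | zero => exact hW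
  | succ k ih =>
    simp only [LX, Matrix.conjTranspose_add, Matrix.conjTranspose_mul, ih, hA]
    rw [add_comm]

variable [DecidableEq n]

theorem LX_conj (A W Q : Matrix n n ℂ) (hQ : Qᴴ * Q = 1) (k : ℕ) :
    LX (Qᴴ * A * Q) k (Qᴴ * W * Q) = Qᴴ * LX A k W * Q := by
  have hQ' : Q * Qᴴ = 1 := mul_eq_one_comm.1 hQ
  induction k with
  | zero => rfl
  | succ k ih =>
    simp only [LX, ih]
    have e1 : Qᴴ * A * Q * (Qᴴ * LX A k W * Q) = Qᴴ * (A * LX A k W) * Q := by
      calc Qᴴ * A * Q * (Qᴴ * LX A k W * Q) = Qᴴ * A * (Q * Qᴴ) * LX A k W * Q := by noncomm_ring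
        _ = _ := by rw [hQ']; noncomm_ring
    have e2 : Qᴴ * LX A k W * Q * (Qᴴ * A * Q) = Qᴴ * (LX A k W * A) * Q := by
      calc Qᴴ * LX A k W * Q * (Qᴴ * A * Q) = Qᴴ * LX A k W * (Q * Qᴴ) * A * Q := by noncomm_ring
        _ = _ := by rw [hQ']; noncomm_ring
    rw [e1, e2]; noncomm_ring

theorem LE_conj (A B Q : Matrix n n ℂ) (hQ : Qᴴ * Q = 1) (k : ℕ) :
    LE (Qᴴ * A * Q) (Qᴴ * B * Q) k = Qᴴ * LE A B k * Q := by
  have hQ' : Q * Qᴴ = 1 := mul_eq_one_comm.1 hQ
  have key : ∀ X Y : Matrix n n ℂ, Qᴴ * X * Q * (Qᴴ * Y * Q) = Qᴴ * (X * Y) * Q := by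
    intro X Y
    calc Qᴴ * X * Q * (Qᴴ * Y * Q) = Qᴴ * X * (Q * Qᴴ) * Y * Q := by noncomm_ring
      _ = _ := by rw [hQ']; noncomm_ring
  induction k with
  | zero => simp [LE]
  | succ k ih =>
    simp only [LE, ih, LX_conj A B Q hQ, key]
    noncomm_ring

theorem LX_diagonal (a : n → ℝ) (W : Matrix n n ℂ) (k : ℕ) (i j : n) :
    LX (Matrix.diagonal fun i => (a i : ℂ)) k W i j = ((a i + a j) ^ k : ℝ) * W i j := by
  induction k with
  | zero => simp [LX]
  | succ k ih =>
    simp only [LX, Matrix.add_apply, Matrix.diagonal_mul, Matrix.mul_diagonal, ih]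
    push_cast
    ring

end alg

/-- the divided difference of `X ^ k` -/
def gd (s t : ℝ) : ℕ → ℝ
  | 0 => 0
  | k + 1 => s * gd s t k + t ^ k

theorem gd_mul_sub (s t : ℝ) (k : ℕ) : gd s t k * (s - t) = s ^ k - t ^ k := by
  induction k with
  | zero => simp [gd]
  | succ k ih =>
    rw [gd, add_mul, mul_assoc, ih]; ring

theorem gd_self (s : ℝ) (k : ℕ) : gd s s k = k * s ^ (k - 1) := by
  induction k with
  | zero => simp [gd]
  | succ k ih =>
    rw [gd, ih]
    rcases k with _ | k
    · simp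
    · simp only [Nat.add_sub_cancel]
      push_cast
      ring

theorem gd_comm (s t : ℝ) (k : ℕ) : gd s t k = gd t s k := by
  rcases eq_or_ne s t with h | h
  · rw [h]
  · have h1 := gd_mul_sub s t k
    have h2 := gd_mul_sub t s k
    have h3 : s - t ≠ 0 := sub_ne_zero.2 h
    have : gd s t k * (s - t) = gd t s k * (s - t) := by
      rw [h1]; linarith
    exact mul_right_cancel₀ h3 this

section alg
variable {n : Type*} [Fintype n] [DecidableEq n]

theorem LE_diagonal (a : n → ℝ) (B : Matrix n n ℂ) (k : ℕ) (i j : n) :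
    LE (Matrix.diagonal fun i => (a i : ℂ)) B k i j = ∑ p, B i p * B p j *
      ((gd (a i + a j) (a p + a j) k + gd (a i + a j) (a i + a p) k : ℝ) : ℂ) := by
  induction k with
  | zero => simp [LE, gd]
  | succ k ih =>
    simp only [LE, Matrix.add_apply, Matrix.diagonal_mul, Matrix.mul_diagonal, ih]
    rw [Matrix.mul_apply, Matrix.mul_apply]
    simp only [LX_diagonal, gd]
    rw [mul_sum, sum_mul, ← sum_add_distrib, ← sum_add_distrib, ← sum_add_distrib]
    refine sum_congr rfl fun p _ => ?_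
    push_cast
    ring

/-! ### polynomials -/

open Polynomial in
/-- `P(L_A) W` -/
noncomputable def PhiP (P : Polynomial ℝ) (A W : Matrix n n ℂ) : Matrix n n ℂ :=
  ∑ k ∈ range (P.natDegree + 1), ((P.coeff k : ℝ) : ℂ) • LX A k W

/-- the derivative term for `P` -/
noncomputable def EP (P : Polynomial ℝ) (A B : Matrix n n ℂ) : Matrix n n ℂ :=
  ∑ k ∈ range (P.natDegree + 1), ((P.coeff k : ℝ) : ℂ) • LE A B k

/-- divided differences of `P` -/
noncomputable def pd (P : Polynomial ℝ) (s t : ℝ) : ℝ :=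
  ∑ k ∈ range (P.natDegree + 1), P.coeff k * gd s t k

omit [Fintype n] [DecidableEq n] in
theorem pd_mul_sub (P : Polynomial ℝ) (s t : ℝ) : pd P s t * (s - t) = P.eval s - P.eval t := by
  rw [pd, sum_mul, Polynomial.eval_eq_sum_range, Polynomial.eval_eq_sum_range, ← sum_sub_distrib]
  refine sum_congr rfl fun k _ => ?_
  rw [mul_assoc, gd_mul_sub]; ring

theorem pd_self (P : Polynomial ℝ) (s : ℝ) : pd P s s = P.derivative.eval s := by
  rw [pd, Polynomial.derivative_eval, Polynomial.sum_over_range]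
  · refine sum_congr rfl fun k _ => ?_
    rw [gd_self]; ring
  · intro k; simp

theorem pd_comm (P : Polynomial ℝ) (s t : ℝ) : pd P s t = pd P t s := by
  unfold pd
  exact sum_congr rfl fun k _ => by rw [gd_comm]

omit [DecidableEq n] in
theorem PhiP_conjTranspose (P : Polynomial ℝ) {A W : Matrix n n ℂ} (hA : Aᴴ = A) (hW : Wᴴ = W) :
    (PhiP P A W)ᴴ = PhiP P A W := by
  unfold PhiP
  rw [Matrix.conjTranspose_sum]
  refine sum_congr rfl fun k _ => ?_
  rw [Matrix.conjTranspose_smul, LX_conjTranspose hA hW]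
  simp

omit [DecidableEq n] in
theorem trace_PhiP (P : Polynomial ℝ) (A Z W : Matrix n n ℂ) :
    (Z * PhiP P A W).trace = (PhiP P A Z * W).trace := by
  unfold PhiP
  rw [Finset.mul_sum, Finset.sum_mul, Matrix.trace_sum, Matrix.trace_sum]
  refine sum_congr rfl fun k _ => ?_
  rw [Matrix.mul_smul, Matrix.smul_mul, Matrix.trace_smul, Matrix.trace_smul, trace_LX]

theorem PhiP_conj (P : Polynomial ℝ) (A W Q : Matrix n n ℂ) (hQ : Qᴴ * Q = 1) :
    PhiP P (Qᴴ * A * Q) (Qᴴ * W * Q) = Qᴴ * PhiP P A W * Q := by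
  unfold PhiP
  rw [Finset.mul_sum, Finset.sum_mul]
  refine sum_congr rfl fun k _ => ?_
  rw [LX_conj A W Q hQ, Matrix.mul_smul, Matrix.smul_mul]

theorem EP_conj (P : Polynomial ℝ) (A B Q : Matrix n n ℂ) (hQ : Qᴴ * Q = 1) :
    EP P (Qᴴ * A * Q) (Qᴴ * B * Q) = Qᴴ * EP P A B * Q := by
  unfold EP
  rw [Finset.mul_sum, Finset.sum_mul]
  refine sum_congr rfl fun k _ => ?_
  rw [LE_conj A B Q hQ, Matrix.mul_smul, Matrix.smul_mul]

theorem PhiP_diagonal (P : Polynomial ℝ) (a : n → ℝ) (W : Matrix n n ℂ) (i j : n) :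
    PhiP P (Matrix.diagonal fun i => (a i : ℂ)) W i j = ((P.eval (a i + a j) : ℝ) : ℂ) * W i j := by
  unfold PhiP
  rw [Matrix.sum_apply, Polynomial.eval_eq_sum_range]
  push_cast
  rw [sum_mul]
  refine sum_congr rfl fun k _ => ?_
  rw [Matrix.smul_apply, LX_diagonal, smul_eq_mul]
  push_cast
  ring

theorem EP_diagonal (P : Polynomial ℝ) (a : n → ℝ) (B : Matrix n n ℂ) (i j : n) :
    EP P (Matrix.diagonal fun i => (a i : ℂ)) B i j = ∑ p, B i p * B p j *
      ((pd P (a i + a j) (a p + a j) + pd P (a i + a j) (a i + a p) : ℝ) : ℂ) := by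
  unfold EP pd
  rw [Matrix.sum_apply]
  simp only [Matrix.smul_apply, LE_diagonal, smul_eq_mul, mul_sum]
  rw [sum_comm]
  refine sum_congr rfl fun p _ => ?_
  rw [← sum_add_distrib]
  push_cast
  rw [mul_sum]
  refine sum_congr rfl fun k _ => ?_
  ring

/-! ### cubic sums -/

/-- `∑ Re (B_ij B_jk B_ki) w_ijk` -/
noncomputable def cub (B : Matrix n n ℂ) (w : n → n → n → ℝ) : ℝ :=
  ∑ i, ∑ j, ∑ k, (B i j * B j k * B k i).re * w i j k

omit [DecidableEq n] in
theorem cub_swap23 {B : Matrix n n ℂ} (hB : Bᴴ = B) (w : n → n → n → ℝ) :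
    cub B w = cub B fun i j k => w i k j := by
  have hBh : ∀ i j, star (B i j) = B j i := fun i j => by
    rw [← Matrix.conjTranspose_apply, hB]
  unfold cub
  rw [sum3_swap23]
  refine sum_congr rfl fun i _ => sum_congr rfl fun j _ => sum_congr rfl fun k _ => ?_
  congr 1
  rw [← Complex.conj_re]
  congr 1
  simp only [map_mul, ← Complex.star_def, hBh]
  ring

omit [DecidableEq n] in
theorem cub_swap13 {B : Matrix n n ℂ} (hB : Bᴴ = B) (w : n → n → n → ℝ) :
    cub B w = cub B fun i j k => w k j i := by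
  have hBh : ∀ i j, star (B i j) = B j i := fun i j => by
    rw [← Matrix.conjTranspose_apply, hB]
  unfold cub
  rw [sum3_swap13]
  refine sum_congr rfl fun i _ => sum_congr rfl fun j _ => sum_congr rfl fun k _ => ?_
  congr 1
  rw [← Complex.conj_re]
  congr 1
  simp only [map_mul, ← Complex.star_def, hBh]
  ring

omit [DecidableEq n] in
theorem cub_add (B : Matrix n n ℂ) (w v : n → n → n → ℝ) :
    cub B (fun i j k => w i j k + v i j k) = cub B w + cub B v := by
  unfold cub
  simp only [mul_add, sum_add_distrib]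

omit [DecidableEq n] in
theorem cub_smul (B : Matrix n n ℂ) (c : ℝ) (w : n → n → n → ℝ) :
    cub B (fun i j k => c * w i j k) = c * cub B w := by
  unfold cub
  simp only [mul_sum]
  refine sum_congr rfl fun i _ => sum_congr rfl fun j _ => sum_congr rfl fun k _ => ?_
  ring

omit [DecidableEq n] in
theorem cub_one (B : Matrix n n ℂ) : cub B (fun _ _ _ => 1) = (B * B * B).trace.re := by
  unfold cub
  simp only [Matrix.trace, Matrix.diag_apply, Matrix.mul_apply, Complex.re_sum, sum_mul, mul_one]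
  refine sum_congr rfl fun i _ => ?_
  rw [sum_comm]

/-- the weight -/
noncomputable def wP (P : Polynomial ℝ) (a : n → ℝ) (i j k : n) : ℝ :=
  P.eval (a i + a j) * P.eval (a j + a k) + 2 * pd P (a i + a j) (a j + a k)

theorem cub_wP_diagonal (P : Polynomial ℝ) (a : n → ℝ) {B : Matrix n n ℂ} (hB : Bᴴ = B) :
    (B * EP P (Matrix.diagonal fun i => (a i : ℂ)) B).trace.re
      + (PhiP P (Matrix.diagonal fun i => (a i : ℂ)) B * B
          * PhiP P (Matrix.diagonal fun i => (a i : ℂ)) B).trace.re = cub B (wP P a) := by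
  have h1 : (PhiP P (Matrix.diagonal fun i => (a i : ℂ)) B * B
          * PhiP P (Matrix.diagonal fun i => (a i : ℂ)) B).trace.re
      = cub B (fun i j k => P.eval (a i + a j) * P.eval (a k + a i)) := by
    unfold cub
    simp only [Matrix.trace, Matrix.diag_apply, Matrix.mul_apply, Complex.re_sum, sum_mul,
      PhiP_diagonal]
    refine sum_congr rfl fun i _ => ?_
    rw [sum_comm]
    refine sum_congr rfl fun j _ => sum_congr rfl fun k _ => ?_
    rw [show ((P.eval (a i + a j) : ℝ) : ℂ) * B i j * B j k * (((P.eval (a k + a i) : ℝ) : ℂ) * B k i)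
      = (B i j * B j k * B k i) * ((P.eval (a i + a j) * P.eval (a k + a i) : ℝ) : ℂ) by
        push_cast; ring, Complex.re_mul_ofReal]
  have h2 : (B * EP P (Matrix.diagonal fun i => (a i : ℂ)) B).trace.re
      = cub B (fun i j k => pd P (a j + a i) (a k + a i) + pd P (a j + a i) (a j + a k)) := by
    unfold cub
    simp only [Matrix.trace, Matrix.diag_apply, Matrix.mul_apply, Complex.re_sum, EP_diagonal,
      mul_sum]
    refine sum_congr rfl fun i _ => sum_congr rfl fun j _ => sum_congr rfl fun k _ => ?_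
    rw [← mul_assoc, Complex.re_mul_ofReal, ← mul_assoc]
  have h3 : cub B (fun i j k => P.eval (a i + a j) * P.eval (a k + a i))
      = cub B (fun i j k => P.eval (a i + a j) * P.eval (a j + a k)) := by
    rw [cub_swap13 hB, cub_swap23 hB, cub_swap13 hB]
    unfold cub
    refine sum_congr rfl fun i _ => sum_congr rfl fun j _ => sum_congr rfl fun k _ => ?_
    dsimp only
    rw [add_comm (a j) (a i), add_comm (a k) (a j)]
  have h4 : cub B (fun i j k => pd P (a j + a i) (a k + a i) + pd P (a j + a i) (a j + a k))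
      = cub B (fun i j k => 2 * pd P (a i + a j) (a j + a k)) := by
    rw [cub_add]
    have e1 : cub B (fun i j k => pd P (a j + a i) (a k + a i))
        = cub B (fun i j k => pd P (a i + a j) (a j + a k)) := by
      rw [cub_swap13 hB, cub_swap23 hB, cub_swap13 hB]
      unfold cub
      refine sum_congr rfl fun i _ => sum_congr rfl fun j _ => sum_congr rfl fun k _ => ?_
      dsimp only
      rw [add_comm (a k) (a j)]
    have e2 : cub B (fun i j k => pd P (a j + a i) (a j + a k))
        = cub B (fun i j k => pd P (a i + a j) (a j + a k)) := by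
      unfold cub
      refine sum_congr rfl fun i _ => sum_congr rfl fun j _ => sum_congr rfl fun k _ => ?_
      dsimp only
      rw [add_comm (a j) (a i)]
    rw [e1, e2, ← cub_add]
    congr 1
    funext i j k; ring
  rw [h1, h2, h3, h4, ← cub_add]
  congr 1
  funext i j k
  unfold wP; ring

end alg

end Vale.Agent.P371
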