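import Vale.Agent.Lib.P371.Upper

/-! The upper bounds on `LT γ m` for `γ ≥ 1`, from the kinetic inequality. -/

open MeasureTheory Matrix
open scoped ENNReal ComplexOrder ComplexConjugate Topology

namespace Vale.Agent.P371

variable {m n N : ℕ}

theorem beta_lintegral_one {a d : ℝ} (ha : 0 < a) (hd : 0 < d) :
    ∫⁻ t in Set.Ioo (0 : ℝ) 1, ENNReal.ofReal (t ^ (a - 1) * (1 - t) ^ d)
      = ENNReal.ofReal (ProbabilityTheory.beta a (d + 1)) := by
  have h1 := ProbabilityTheory.lintegral_betaPDF_eq_one ha (by linarith : (0 : ℝ) < d + 1)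
  have hb := ProbabilityTheory.beta_pos ha (by linarith : (0 : ℝ) < d + 1)
  rw [ProbabilityTheory.lintegral_betaPDF] at h1
  have h2 : ∀ t : ℝ, ENNReal.ofReal (1 / ProbabilityTheory.beta a (d + 1) * t ^ (a - 1)
      * (1 - t) ^ (d + 1 - 1)) = ENNReal.ofReal (1 / ProbabilityTheory.beta a (d + 1))
        * ENNReal.ofReal (t ^ (a - 1) * (1 - t) ^ d) := by
    intro t
    rw [← ENNReal.ofReal_mul (by positivity), add_sub_cancel_right, mul_assoc]
  simp only [h2] at h1
  rw [lintegral_const_mul'] at h1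
  · have h3 : ENNReal.ofReal (ProbabilityTheory.beta a (d + 1))
        * ENNReal.ofReal (1 / ProbabilityTheory.beta a (d + 1)) = 1 := by
      rw [← ENNReal.ofReal_mul hb.le, mul_one_div_cancel hb.ne', ENNReal.ofReal_one]
    calc _ = ENNReal.ofReal (ProbabilityTheory.beta a (d + 1))
        * (ENNReal.ofReal (1 / ProbabilityTheory.beta a (d + 1)) * ∫⁻ t in Set.Ioo (0 : ℝ) 1,
          ENNReal.ofReal (t ^ (a - 1) * (1 - t) ^ d)) := by
          rw [← mul_assoc, h3, one_mul]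
      _ = _ := by rw [h1, mul_one]
  · exact ENNReal.ofReal_ne_top

theorem beta_lintegral {a d : ℝ} (ha : 0 < a) (hd : 0 < d) {w : ℝ} (hw : 0 ≤ w) :
    ∫⁻ τ in Set.Ioi (0 : ℝ), ENNReal.ofReal (τ ^ (a - 1)) * ENNReal.ofReal ((max (w - τ) 0) ^ d)
      = ENNReal.ofReal (ProbabilityTheory.beta a (d + 1)) * ENNReal.ofReal (w ^ (a + d)) := by
  rcases hw.eq_or_lt with h0 | hw
  · rw [← h0, Real.zero_rpow (by linarith), ENNReal.ofReal_zero, mul_zero]
    rw [setLIntegral_congr_fun (g := fun _ => 0) measurableSet_Ioi, lintegral_zero]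
    intro τ hτ
    have : (0 : ℝ) < τ := hτ
    simp only
    rw [max_eq_right (by linarith), Real.zero_rpow hd.ne', ENNReal.ofReal_zero, mul_zero]
  set F : ℝ → ℝ≥0∞ := (Set.Ioo 0 w).indicator
    (fun τ => ENNReal.ofReal (τ ^ (a - 1) * (w - τ) ^ d)) with hF
  have h1 : ∫⁻ τ in Set.Ioi (0 : ℝ), ENNReal.ofReal (τ ^ (a - 1))
      * ENNReal.ofReal ((max (w - τ) 0) ^ d) = ∫⁻ τ, F τ := by
    rw [← lintegral_indicator measurableSet_Ioi]
    refine lintegral_congr fun τ => ?_
    rw [hF]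
    by_cases h2 : τ ∈ Set.Ioo 0 w
    · rw [Set.indicator_of_mem (show τ ∈ Set.Ioi 0 from h2.1), Set.indicator_of_mem h2,
        max_eq_left (by linarith [h2.2]), ENNReal.ofReal_mul (Real.rpow_nonneg h2.1.le _)]
    · rw [Set.indicator_of_notMem h2]
      by_cases h3 : τ ∈ Set.Ioi (0 : ℝ)
      · rw [Set.indicator_of_mem h3]
        have h4 : w ≤ τ := by
          by_contra h5
          exact h2 ⟨h3, not_le.1 h5⟩
        rw [max_eq_right (by linarith), Real.zero_rpow hd.ne', ENNReal.ofReal_zero, mul_zero]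
      · rw [Set.indicator_of_notMem h3]
  have hFm : Measurable F := by
    rw [hF]
    refine Measurable.indicator ?_ measurableSet_Ioo
    fun_prop
  have h2 : ∀ t, F (w * t) = ENNReal.ofReal (w ^ (a - 1 + d)) * (Set.Ioo (0 : ℝ) 1).indicator
      (fun t => ENNReal.ofReal (t ^ (a - 1) * (1 - t) ^ d)) t := by
    intro t
    rw [hF]
    by_cases h3 : t ∈ Set.Ioo (0 : ℝ) 1
    · have h4 : w * t ∈ Set.Ioo 0 w := ⟨mul_pos hw h3.1, by
        have := mul_lt_mul_of_pos_left h3.2 hw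
        rwa [mul_one] at this⟩
      rw [Set.indicator_of_mem h4, Set.indicator_of_mem h3,
        ← ENNReal.ofReal_mul (Real.rpow_nonneg hw.le _)]
      congr 1
      rw [show w - w * t = w * (1 - t) by ring, Real.mul_rpow hw.le h3.1.le,
        Real.mul_rpow hw.le (by linarith [h3.2]), Real.rpow_add hw]
      ring
    · have h4 : w * t ∉ Set.Ioo 0 w := fun h5 => h3 ⟨by
        have h6 := h5.1
        exact (mul_pos_iff_of_pos_left hw).1 h6, by
        have h6 := h5.2
        nlinarith⟩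
      rw [Set.indicator_of_notMem h4, Set.indicator_of_notMem h3, mul_zero]
  rw [h1]
  have h3 : ∫⁻ τ, F τ = ENNReal.ofReal w * ∫⁻ t, F (w * t) := by
    conv_lhs => rw [← Real.smul_map_volume_mul_left hw.ne']
    rw [lintegral_smul_measure, lintegral_map hFm (measurable_const_mul w), abs_of_pos hw,
      smul_eq_mul]
  rw [h3]
  simp only [h2]
  rw [lintegral_const_mul' _ _ ENNReal.ofReal_ne_top, lintegral_indicator measurableSet_Ioo,
    beta_lintegral_one ha hd, ← mul_assoc, ← ENNReal.ofReal_mul hw.le, mul_comm]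
  congr 2
  rw [← Real.rpow_one_add' hw.le (by linarith)]
  congr 1
  ring

theorem Lcl_one : Lcl 1 = 2 / (3 * Real.pi) := by
  unfold Lcl
  have h1 : Real.Gamma (1 + 1) = 1 := by
    rw [Real.Gamma_add_one one_ne_zero, Real.Gamma_one, mul_one]
  have h2 : Real.Gamma (1 + 3 / 2) = 3 / 4 * √Real.pi := by
    rw [show (1 + 3 / 2 : ℝ) = (1 / 2 + 1) + 1 by norm_num, Real.Gamma_add_one (by norm_num),
      Real.Gamma_add_one (by norm_num), Real.Gamma_one_half_eq]
    ring
  rw [h1, h2]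
  have h3 : 2 * √Real.pi * (3 / 4 * √Real.pi) = 3 / 2 * Real.pi := by
    have := Real.mul_self_sqrt Real.pi_pos.le
    nlinarith
  rw [h3]
  have := Real.pi_pos
  field_simp

theorem Lone_one : Lone 1 = 2 / 3 * (2 / (√3 * Real.pi)) := by
  unfold Lone
  rw [Lcl_one]
  have h1 : ((1 - 1 / 2 : ℝ) / (1 + 1 / 2)) ^ (1 - 1 / 2 : ℝ) = 1 / √3 := by
    rw [show ((1 - 1 / 2 : ℝ) / (1 + 1 / 2)) = 1 / 3 by norm_num,
      show (1 - 1 / 2 : ℝ) = 1 / 2 by norm_num, ← Real.sqrt_eq_rpow, Real.sqrt_div (by norm_num),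
      Real.sqrt_one]
  rw [h1]
  have := Real.pi_pos
  have h3 : (0 : ℝ) < √3 := by positivity
  field_simp

theorem Lone_one_eq : Lone 1 = 2 / √3 * Lcl 1 := by
  rw [Lone_one, Lcl_one]
  have := Real.pi_pos
  have h3 : (0 : ℝ) < √3 := by positivity
  field_simp

theorem trF_zero_eq {M : Matrix (Fin m) (Fin m) ℂ} (hM : M.PosSemidef) :
    trF (fun t => (max (t - 0) 0) ^ (3 / 2 : ℝ)) M = trPow (3 / 2) M := by
  rw [trPow_eq_trF, trF_of hM.isHermitian, trF_of hM.isHermitian]
  refine Finset.sum_congr rfl fun i _ => ?_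
  rw [sub_zero, max_eq_left (hM.eigenvalues_nonneg i)]

theorem LT_one_le (hK : KineticIneq m) : LT 1 m ≤ ENNReal.ofReal (Lone 1) := by
  unfold LT
  refine iSup_le fun W => iSup_le fun hW => iSup_le fun _ => ?_
  refine ENNReal.div_le_of_le_mul ?_
  unfold negMoment
  refine iSup_le fun n => iSup_le fun lam => iSup_le fun h => ?_
  have h1 := riesz_le hK (by norm_num : (1 : ℝ) ≤ 1 + 1 / 2) hW h 0
  simp only [Real.rpow_one]
  rw [Lone_one]
  refine (le_of_eq ?_).trans (h1.trans (le_of_eq ?_))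
  · simp only [sub_zero]
  · congr 1
    unfold potInt
    refine lintegral_congr fun x => ?_
    rw [trF_zero_eq (hW.posSemidef x)]
    norm_num

theorem beta_ratio {γ : ℝ} (hγ : 1 < γ) :
    2 / 3 * (2 / (√3 * Real.pi)) * ProbabilityTheory.beta (γ - 1) (3 / 2 + 1)
      = 2 / √3 * Lcl γ * ProbabilityTheory.beta (γ - 1) (1 + 1) := by
  unfold ProbabilityTheory.beta Lcl
  have h1 : Real.Gamma (1 + 1) = 1 := by
    rw [Real.Gamma_add_one one_ne_zero, Real.Gamma_one, mul_one]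
  have h2 : Real.Gamma (3 / 2 + 1) = 3 / 4 * √Real.pi := by
    rw [show (3 / 2 + 1 : ℝ) = (1 / 2 + 1) + 1 by norm_num, Real.Gamma_add_one (by norm_num),
      Real.Gamma_add_one (by norm_num), Real.Gamma_one_half_eq]
    ring
  rw [h1, h2, show γ - 1 + (3 / 2 + 1) = γ + 3 / 2 by ring, show γ - 1 + (1 + 1) = γ + 1 by ring]
  have h3 := Real.Gamma_pos_of_pos (by linarith : 0 < γ - 1)
  have h4 := Real.Gamma_pos_of_pos (by linarith : 0 < γ + 1)
  have h5 := Real.Gamma_pos_of_pos (by linarith : 0 < γ + 3 / 2)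
  have h6 : (0 : ℝ) < √3 := by positivity
  have h7 : 0 < √Real.pi := Real.sqrt_pos.2 Real.pi_pos
  have h8 : Real.pi = √Real.pi ^ 2 := (Real.sq_sqrt Real.pi_pos.le).symm
  have h9 := Real.pi_pos
  rw [show 2 / 3 * (2 / (√3 * Real.pi)) = 2 / 3 * (2 / (√3 * √Real.pi ^ 2)) by rw [← h8]]
  field_simp
  ring

theorem measurable_kernel {p : ℝ} {W : ℝ → Matrix (Fin m) (Fin m) ℂ} (hW : IsPotential p W) :
    Measurable (Function.uncurry fun (τ x : ℝ) =>
      trF (fun t => (max (t - τ) 0) ^ (3 / 2 : ℝ)) (W x)) := by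
  refine measurable_uncurry_of_continuous_of_measurable (fun x => ?_) fun τ => ?_
  · simp only [trF_of (hW.posSemidef x).isHermitian]
    refine continuous_finsetSum _ fun i _ => ?_
    exact (Real.continuous_rpow_const (by norm_num)).comp
      ((continuous_const.sub continuous_id).max continuous_const)
  · exact measurable_trF hW.measurable (fun x => (hW.posSemidef x).isHermitian) (phi_continuous τ)

theorem LT_le_of_one_lt (hK : KineticIneq m) {γ : ℝ} (hγ : 1 < γ) :
    LT γ m ≤ ENNReal.ofReal (2 / √3 * Lcl γ) := by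
  unfold LT
  refine iSup_le fun W => iSup_le fun hW => iSup_le fun _ => ?_
  refine ENNReal.div_le_of_le_mul ?_
  unfold negMoment
  refine iSup_le fun n => iSup_le fun lam => iSup_le fun h => ?_
  have hc : 0 < 2 / 3 * (2 / (√3 * Real.pi)) := mul_pos (by norm_num) const_facts.1
  have ha : 0 < γ - 1 := by linarith
  have hb1 := ProbabilityTheory.beta_pos ha (by norm_num : (0 : ℝ) < 1 + 1)
  have hb2 := ProbabilityTheory.beta_pos ha (by norm_num : (0 : ℝ) < 3 / 2 + 1)
  -- the left side as an integral over the threshold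
  have h1 : ENNReal.ofReal (ProbabilityTheory.beta (γ - 1) (1 + 1))
      * ∑ j, ENNReal.ofReal (|lam j| ^ γ)
      = ∫⁻ τ in Set.Ioi (0 : ℝ), ENNReal.ofReal (τ ^ (γ - 1 - 1))
        * ∑ j, ENNReal.ofReal (|lam j| - τ) := by
    simp only [Finset.mul_sum]
    rw [lintegral_finsetSum]
    · refine Finset.sum_congr rfl fun j _ => ?_
      have h2 := beta_lintegral ha one_pos (abs_nonneg (lam j))
      rw [show γ - 1 + 1 = γ by ring] at h2
      rw [← h2]
      refine lintegral_congr fun τ => ?_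
      congr 1
      rw [Real.rpow_one]
      rcases le_total 0 (|lam j| - τ) with h3 | h3
      · rw [max_eq_left h3]
      · rw [max_eq_right h3, ENNReal.ofReal_zero, ENNReal.ofReal_of_nonpos h3]
    · intro j _
      fun_prop
  have h2 : ∫⁻ τ in Set.Ioi (0 : ℝ), ENNReal.ofReal (τ ^ (γ - 1 - 1))
        * ∑ j, ENNReal.ofReal (|lam j| - τ)
      ≤ ∫⁻ τ in Set.Ioi (0 : ℝ), ENNReal.ofReal (2 / 3 * (2 / (√3 * Real.pi)))
        * ∫⁻ x, ENNReal.ofReal (τ ^ (γ - 1 - 1))
          * ENNReal.ofReal (trF (fun t => (max (t - τ) 0) ^ (3 / 2 : ℝ)) (W x)) := by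
    refine lintegral_mono fun τ => ?_
    rw [lintegral_const_mul' _ _ ENNReal.ofReal_ne_top]
    calc _ ≤ ENNReal.ofReal (τ ^ (γ - 1 - 1)) * (ENNReal.ofReal (2 / 3 * (2 / (√3 * Real.pi))) *
          ∫⁻ x, ENNReal.ofReal (trF (fun t => (max (t - τ) 0) ^ (3 / 2 : ℝ)) (W x))) := by
          gcongr
          exact riesz_le hK (by linarith) hW h τ
      _ = _ := by ring
  have hmeas : Measurable (Function.uncurry fun (τ x : ℝ) => ENNReal.ofReal (τ ^ (γ - 1 - 1))
      * ENNReal.ofReal (trF (fun t => (max (t - τ) 0) ^ (3 / 2 : ℝ)) (W x))) := by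
    refine Measurable.mul ?_ ((measurable_kernel hW).ennreal_ofReal)
    have : Measurable fun τ : ℝ => ENNReal.ofReal (τ ^ (γ - 1 - 1)) := by fun_prop
    exact this.comp measurable_fst
  have h3 : ∫⁻ τ in Set.Ioi (0 : ℝ), ENNReal.ofReal (2 / 3 * (2 / (√3 * Real.pi)))
        * ∫⁻ x, ENNReal.ofReal (τ ^ (γ - 1 - 1))
          * ENNReal.ofReal (trF (fun t => (max (t - τ) 0) ^ (3 / 2 : ℝ)) (W x))
      = ENNReal.ofReal (2 / 3 * (2 / (√3 * Real.pi))) * (ENNReal.ofReal
        (ProbabilityTheory.beta (γ - 1) (3 / 2 + 1)) * potInt (γ + 1 / 2) W) := by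
    rw [lintegral_const_mul' _ _ ENNReal.ofReal_ne_top]
    congr 1
    rw [lintegral_lintegral_swap hmeas.aemeasurable]
    unfold potInt
    rw [← lintegral_const_mul' _ _ ENNReal.ofReal_ne_top]
    refine lintegral_congr fun x => ?_
    have hH := (hW.posSemidef x).isHermitian
    rw [trPow_eq_trF, trF_of hH, ENNReal.ofReal_sum_of_nonneg fun i _ =>
      Real.rpow_nonneg ((hW.posSemidef x).eigenvalues_nonneg i) _, Finset.mul_sum]
    have h4 : ∀ τ : ℝ, ENNReal.ofReal (τ ^ (γ - 1 - 1))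
          * ENNReal.ofReal (trF (fun t => (max (t - τ) 0) ^ (3 / 2 : ℝ)) (W x))
        = ∑ i, ENNReal.ofReal (τ ^ (γ - 1 - 1))
          * ENNReal.ofReal ((max (hH.eigenvalues i - τ) 0) ^ (3 / 2 : ℝ)) := by
      intro τ
      rw [trF_of hH, ENNReal.ofReal_sum_of_nonneg fun i _ => phi_nonneg τ _, Finset.mul_sum]
    simp only [h4]
    rw [lintegral_finsetSum]
    · refine Finset.sum_congr rfl fun i _ => ?_
      rw [beta_lintegral ha (by norm_num) ((hW.posSemidef x).eigenvalues_nonneg i)]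
      congr 3
      ring
    · intro i _
      fun_prop
  have h4 : ENNReal.ofReal (ProbabilityTheory.beta (γ - 1) (1 + 1))
      * ∑ j, ENNReal.ofReal (|lam j| ^ γ)
      ≤ ENNReal.ofReal (ProbabilityTheory.beta (γ - 1) (1 + 1))
        * (ENNReal.ofReal (2 / √3 * Lcl γ) * potInt (γ + 1 / 2) W) := by
    rw [h1]
    refine h2.trans (le_of_eq ?_)
    rw [h3, ← mul_assoc, ← mul_assoc, ← ENNReal.ofReal_mul hc.le, ← ENNReal.ofReal_mul hb1.le,
      beta_ratio hγ, mul_comm (ProbabilityTheory.beta (γ - 1) (1 + 1))]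
  exact (ENNReal.mul_le_mul_iff_right (by rwa [Ne, ENNReal.ofReal_eq_zero, not_le])
    ENNReal.ofReal_ne_top).1 h4

theorem LT_le_of_one_le (hK : KineticIneq m) {γ : ℝ} (hγ : 1 ≤ γ) :
    LT γ m ≤ ENNReal.ofReal (2 / √3 * Lcl γ) := by
  rcases hγ.eq_or_lt with h | h
  · rw [← h, ← Lone_one_eq]
    exact LT_one_le hK
  · exact LT_le_of_one_lt hK h

end Vale.Agent.P371
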