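import Mathlib

/-! # Weak derivatives on the line (complex valued primitives) -/

open MeasureTheory Set Filter Topology

namespace Vale.Agent.P371

/-- `f` is a primitive of the locally integrable function `f'`. -/
structure HasW (f f' : ℝ → ℂ) : Prop where
  int : ∀ a b, IntervalIntegrable f' volume a b
  ftc : ∀ a b, f b - f a = ∫ x in a..b, f' x

namespace HasW

variable {f f' g g' : ℝ → ℂ}

theorem eq_add (hf : HasW f f') (a b : ℝ) : f b = f a + ∫ x in a..b, f' x := by
  rw [← hf.ftc a b]; ring

theorem continuous (hf : HasW f f') : Continuous f := by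
  have h1 : f = fun b => f 0 + ∫ x in (0 : ℝ)..b, f' x := funext fun b => hf.eq_add 0 b
  rw [h1]
  exact continuous_const.add (intervalIntegral.continuous_primitive (fun a b => hf.int a b) 0)

theorem ac (hf : HasW f f') (a b : ℝ) : AbsolutelyContinuousOnInterval f a b := by
  have hG : AbsolutelyContinuousOnInterval (fun x => ∫ t in a..x, ‖f' t‖) a b :=
    (hf.int a b).norm.absolutelyContinuousOnInterval_intervalIntegral (c := a) (by simp)
  refine squeeze_zero (fun _ => Finset.sum_nonneg fun i _ => dist_nonneg) (fun E => ?_) hG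
  refine Finset.sum_le_sum fun i _ => ?_
  have e1 : (∫ t in a..(E.2 i).1, ‖f' t‖) - (∫ t in a..(E.2 i).2, ‖f' t‖)
      = ∫ t in (E.2 i).2..(E.2 i).1, ‖f' t‖ :=
    intervalIntegral.integral_interval_sub_left (hf.int _ _).norm (hf.int _ _).norm
  rw [dist_eq_norm, hf.ftc, Real.dist_eq, e1]
  exact intervalIntegral.norm_integral_le_abs_integral_norm

theorem ae_deriv (hf : HasW f f') (a b : ℝ) : ∀ᵐ x, x ∈ uIcc a b → HasDerivAt f (f' x) x := by
  filter_upwards [(hf.int a b).ae_hasDerivAt_integral] with x hx hxm
  have h := hx hxm a left_mem_uIcc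
  have h1 : f = fun b => f a + ∫ x in a..b, f' x := funext fun b => hf.eq_add a b
  rw [h1]
  exact h.const_add (f a)

theorem const (c : ℂ) : HasW (fun _ => c) (fun _ => 0) :=
  ⟨fun _ _ => intervalIntegrable_const, fun a b => by simp⟩

theorem add (hf : HasW f f') (hg : HasW g g') :
    HasW (fun x => f x + g x) (fun x => f' x + g' x) :=
  ⟨fun a b => (hf.int a b).add (hg.int a b), fun a b => by
    rw [intervalIntegral.integral_add (hf.int a b) (hg.int a b), ← hf.ftc, ← hg.ftc]; ring⟩

theorem const_mul (c : ℂ) (hf : HasW f f') : HasW (fun x => c * f x) (fun x => c * f' x) :=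
  ⟨fun a b => (hf.int a b).const_mul c, fun a b => by
    rw [intervalIntegral.integral_const_mul, ← hf.ftc]; ring⟩

theorem star (hf : HasW f f') : HasW (fun x => star (f x)) (fun x => star (f' x)) := by
  refine ⟨fun a b => ?_, fun a b => ?_⟩
  · have := hf.int a b
    rw [intervalIntegrable_iff] at this ⊢
    exact Complex.conjLIE.integrable_comp_iff.2 this
  · have h := ContinuousLinearMap.intervalIntegral_comp_comm
      (Complex.conjCLE : ℂ ≃L[ℝ] ℂ).toContinuousLinearMap (hf.int a b)
    simp only [Complex.star_def]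
    have h2 : ∫ x in a..b, (starRingEnd ℂ) (f' x) = (starRingEnd ℂ) (∫ x in a..b, f' x) := by
      simpa using h
    rw [h2, ← hf.ftc, map_sub]

theorem mul (hf : HasW f f') (hg : HasW g g') :
    HasW (fun x => f x * g x) (fun x => f' x * g x + f x * g' x) := by
  have hint : ∀ a b, IntervalIntegrable (fun x => f' x * g x + f x * g' x) volume a b := fun a b =>
    ((hf.int a b).mul_continuousOn hg.continuous.continuousOn).add
      ((hg.int a b).continuousOn_mul hf.continuous.continuousOn)
  refine ⟨hint, fun a b => ?_⟩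
  have hI : HasW (fun x => ∫ t in a..x, (f' t * g t + f t * g' t))
      (fun x => f' x * g x + f x * g' x) :=
    ⟨hint, fun c d => intervalIntegral.integral_interval_sub_left (hint _ _) (hint _ _)⟩
  have hac : AbsolutelyContinuousOnInterval
      ((f • g) - fun x => ∫ t in a..x, (f' t * g t + f t * g' t)) a b :=
    ((hf.ac a b).smul (hg.ac a b)).sub (hI.ac a b)
  have hd : ∀ᵐ x, x ∈ uIcc a b →
      HasDerivAt ((f • g) - fun x => ∫ t in a..x, (f' t * g t + f t * g' t)) 0 x := by
    filter_upwards [hf.ae_deriv a b, hg.ae_deriv a b, hI.ae_deriv a b] with x h1 h2 h3 hx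
    have h := ((h1 hx).mul (h2 hx)).sub (h3 hx)
    have e : f' x * g x + f x * g' x - (f' x * g x + f x * g' x) = 0 := sub_self _
    rw [e] at h
    exact h
  obtain ⟨C, hC⟩ := hac.const_of_ae_hasDerivAt_zero hd
  have ha := hC a left_mem_uIcc
  have hb := hC b right_mem_uIcc
  simp only [Pi.sub_apply, smul_eq_mul, Pi.mul_apply, intervalIntegral.integral_same,
    sub_zero] at ha hb
  rw [ha, ← hb]; ring

theorem sum {ι : Type*} (s : Finset ι) {F F' : ι → ℝ → ℂ} (h : ∀ i ∈ s, HasW (F i) (F' i)) :
    HasW (fun x => ∑ i ∈ s, F i x) (fun x => ∑ i ∈ s, F' i x) := by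
  classical
  induction s using Finset.induction_on with
  | empty => simpa using const 0
  | insert i s hi ih =>
    have := (h i (Finset.mem_insert_self i s)).add
      (ih fun j hj => h j (Finset.mem_insert_of_mem hj))
    simpa [Finset.sum_insert hi] using this

theorem tendsto_atTop (hf : HasW f f') (h1 : Integrable f) (h2 : Integrable f') :
    Tendsto f atTop (𝓝 0) := by
  have h3 : Tendsto f atTop (𝓝 (f 0 + ∫ x in Ioi (0:ℝ), f' x)) := by
    have e : f = fun b => f 0 + ∫ x in (0 : ℝ)..b, f' x := funext fun b => hf.eq_add 0 b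
    conv => enter [1]; rw [e]
    exact tendsto_const_nhds.add (intervalIntegral_tendsto_integral_Ioi 0 h2.integrableOn tendsto_id)
  have h4 : IntegrableAtFilter f atTop volume := h1.integrableAtFilter _
  have h5 := h4.eq_zero_of_tendsto (fun s hs => ?_) h3
  · rwa [h5] at h3
  · obtain ⟨a, ha⟩ := mem_atTop_sets.1 hs
    rw [← top_le_iff]
    have : Ici a ⊆ s := fun b hb => ha b hb
    exact (by simp : (⊤ : ENNReal) ≤ volume (Ici a)).trans (measure_mono this)

theorem tendsto_atBot (hf : HasW f f') (h1 : Integrable f) (h2 : Integrable f') :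
    Tendsto f atBot (𝓝 0) := by
  have h3 : Tendsto f atBot (𝓝 (f 0 - ∫ x in Iic (0:ℝ), f' x)) := by
    have e : f = fun b => f 0 - ∫ x in b..0, f' x := funext fun b => by
      rw [← hf.ftc b 0]; ring
    conv => enter [1]; rw [e]
    exact tendsto_const_nhds.sub (intervalIntegral_tendsto_integral_Iic 0 h2.integrableOn tendsto_id)
  have h4 : IntegrableAtFilter f atBot volume := h1.integrableAtFilter _
  have h5 := h4.eq_zero_of_tendsto (fun s hs => ?_) h3
  · rwa [h5] at h3
  · obtain ⟨a, ha⟩ := mem_atBot_sets.1 hs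
    rw [← top_le_iff]
    have : Iic a ⊆ s := fun b hb => ha b hb
    exact (by simp : (⊤ : ENNReal) ≤ volume (Iic a)).trans (measure_mono this)

end HasW

end Vale.Agent.P371
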