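import Vale.Agent.Lib.P371.WDeriv
import Vale.Agent.Lib.P371.Pointwise2

/-! # Weak derivatives of matrix valued functions -/

open MeasureTheory Set Filter Topology Matrix
open scoped ComplexOrder

namespace Vale.Agent.P371

/-- entrywise weak derivative -/
def HasWM {m n : Type*} (F F' : ℝ → Matrix m n ℂ) : Prop :=
  ∀ i j, HasW (fun x => F x i j) (fun x => F' x i j)

namespace HasWM
variable {l m n : Type*} [Fintype l] [Fintype m] [Fintype n]

omit [Fintype m] [Fintype n] in
theorem congr' {F F' G' : ℝ → Matrix m n ℂ} (h : HasWM F F') (e : ∀ x, F' x = G' x) :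
    HasWM F G' := by
  have : F' = G' := funext e
  rwa [← this]

omit [Fintype l] [Fintype n] in
theorem mul {F F' : ℝ → Matrix l m ℂ} {G G' : ℝ → Matrix m n ℂ} (hF : HasWM F F')
    (hG : HasWM G G') : HasWM (fun x => F x * G x) (fun x => F' x * G x + F x * G' x) := by
  intro i j
  have := HasW.sum Finset.univ fun k _ => (hF i k).mul (hG k j)
  simpa [Matrix.mul_apply, Finset.sum_add_distrib] using this

omit [Fintype m] [Fintype n] in
theorem add {F F' G G' : ℝ → Matrix m n ℂ} (hF : HasWM F F') (hG : HasWM G G') :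
    HasWM (fun x => F x + G x) (fun x => F' x + G' x) := fun i j => (hF i j).add (hG i j)

omit [Fintype m] [Fintype n] in
theorem smul {F F' : ℝ → Matrix m n ℂ} (c : ℂ) (hF : HasWM F F') :
    HasWM (fun x => c • F x) (fun x => c • F' x) := fun i j => (hF i j).const_mul c

omit [Fintype m] [Fintype n] in
theorem conjTranspose {F F' : ℝ → Matrix m n ℂ} (hF : HasWM F F') :
    HasWM (fun x => (F x)ᴴ) (fun x => (F' x)ᴴ) := fun i j => (hF j i).star

omit [Fintype m] [Fintype n] in
theorem sum {ι : Type*} (s : Finset ι) {F F' : ι → ℝ → Matrix m n ℂ}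
    (h : ∀ k ∈ s, HasWM (F k) (F' k)) :
    HasWM (fun x => ∑ k ∈ s, F k x) (fun x => ∑ k ∈ s, F' k x) := by
  intro i j
  have := HasW.sum s fun k hk => h k hk i j
  simpa [Matrix.sum_apply] using this

theorem trace {F F' : ℝ → Matrix n n ℂ} (hF : HasWM F F') :
    HasW (fun x => (F x).trace) (fun x => (F' x).trace) :=
  HasW.sum Finset.univ fun i _ => hF i i

theorem LX {A B B' : ℝ → Matrix n n ℂ} (hA : HasWM A B) (hB : HasWM B B') (k : ℕ) :
    HasWM (fun x => LX (A x) k (B x)) (fun x => P371.LX (A x) k (B' x) + LE (A x) (B x) k) := by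
  induction k with
  | zero =>
    refine HasWM.congr' (F := fun x => B x) hB fun x => ?_
    simp [P371.LX, LE]
  | succ k ih =>
    refine ((hA.mul ih).add (ih.mul hA)).congr' fun x => ?_
    simp only [P371.LX, LE]
    noncomm_ring

theorem PhiP (P : Polynomial ℝ) {A B B' : ℝ → Matrix n n ℂ} (hA : HasWM A B) (hB : HasWM B B') :
    HasWM (fun x => PhiP P (A x) (B x)) (fun x => P371.PhiP P (A x) (B' x) + EP P (A x) (B x)) := by
  have h := HasWM.sum (Finset.range (P.natDegree + 1)) (fun k _ => (hA.LX hB k).smul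
    ((P.coeff k : ℝ) : ℂ))
  refine HasWM.congr' (F := fun x => P371.PhiP P (A x) (B x)) h fun x => ?_
  unfold P371.PhiP EP
  rw [← Finset.sum_add_distrib]
  refine Finset.sum_congr rfl fun k _ => ?_
  rw [smul_add]

end HasWM

/-! ### limits -/

section limits
variable {l : Filter ℝ} {n : Type*} [Fintype n]

/-- entries tend to zero -/
def ZM (l : Filter ℝ) (F : ℝ → Matrix n n ℂ) : Prop :=
  ∀ i j, Tendsto (fun x => F x i j) l (𝓝 0)

theorem tendsto_bdd_mul {f g : ℝ → ℂ} {K : ℝ} (hf : ∀ x, ‖f x‖ ≤ K) (hg : Tendsto g l (𝓝 0)) :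
    Tendsto (fun x => f x * g x) l (𝓝 0) := by
  have h := (hg.norm).const_mul K
  simp only [norm_zero, mul_zero] at h
  refine squeeze_zero_norm (fun x => ?_) h
  rw [norm_mul]
  gcongr
  exact hf x

theorem ZM.bdd_mul {A G : ℝ → Matrix n n ℂ} {K : ℝ} (hA : ∀ x i j, ‖A x i j‖ ≤ K)
    (hG : ZM l G) : ZM l (fun x => A x * G x) := by
  intro i j
  simp only [Matrix.mul_apply]
  rw [show (0 : ℂ) = ∑ k : n, 0 by simp]
  exact tendsto_finsetSum _ fun k _ => tendsto_bdd_mul (fun x => hA x i k) (hG k j)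

theorem ZM.mul_bdd {A G : ℝ → Matrix n n ℂ} {K : ℝ} (hA : ∀ x i j, ‖A x i j‖ ≤ K)
    (hG : ZM l G) : ZM l (fun x => G x * A x) := by
  intro i j
  simp only [Matrix.mul_apply]
  rw [show (0 : ℂ) = ∑ k : n, 0 by simp]
  refine tendsto_finsetSum _ fun k _ => ?_
  simp only [mul_comm (G _ _ _)]
  exact tendsto_bdd_mul (fun x => hA x k j) (hG i k)

theorem ZM.mul {F G : ℝ → Matrix n n ℂ} (hF : ZM l F) (hG : ZM l G) :
    ZM l (fun x => F x * G x) := by
  intro i j
  simp only [Matrix.mul_apply]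
  rw [show (0 : ℂ) = ∑ k : n, 0 * 0 by simp]
  exact tendsto_finsetSum _ fun k _ => (hF i k).mul (hG k j)

omit [Fintype n] in
theorem ZM.add {F G : ℝ → Matrix n n ℂ} (hF : ZM l F) (hG : ZM l G) :
    ZM l (fun x => F x + G x) := by
  intro i j
  have := (hF i j).add (hG i j)
  simpa using this

theorem ZM.LX {A B : ℝ → Matrix n n ℂ} {K : ℝ} (hA : ∀ x i j, ‖A x i j‖ ≤ K)
    (hB : ZM l B) (k : ℕ) : ZM l (fun x => LX (A x) k (B x)) := by
  induction k with
  | zero => exact hB
  | succ k ih => exact (ih.bdd_mul hA).add (ih.mul_bdd hA)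

theorem ZM.PhiP (P : Polynomial ℝ) {A B : ℝ → Matrix n n ℂ} {K : ℝ}
    (hA : ∀ x i j, ‖A x i j‖ ≤ K) (hB : ZM l B) : ZM l (fun x => PhiP P (A x) (B x)) := by
  intro i j
  simp only [P371.PhiP, Matrix.sum_apply, Matrix.smul_apply, smul_eq_mul]
  rw [show (0 : ℂ) = ∑ k ∈ Finset.range (P.natDegree + 1), ((P.coeff k : ℝ) : ℂ) * 0 by simp]
  exact tendsto_finsetSum _ fun k _ => (hB.LX hA k i j).const_mul _

theorem ZM.trace {F : ℝ → Matrix n n ℂ} (hF : ZM l F) :
    Tendsto (fun x => (F x).trace) l (𝓝 0) := by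
  simp only [Matrix.trace, Matrix.diag_apply]
  rw [show (0 : ℂ) = ∑ k : n, 0 by simp]
  exact tendsto_finsetSum _ fun k _ => hF k k

end limits

/-! ### integrals of positive semidefinite matrices -/

theorem psd_integral {n : Type*} [Fintype n] {μ : Measure ℝ} {B : ℝ → Matrix n n ℂ}
    (hint : ∀ i j, Integrable (fun x => B x i j) μ) (hpsd : ∀ x, (B x).PosSemidef) :
    (Matrix.of fun i j => ∫ x, B x i j ∂μ).PosSemidef := by
  rw [Matrix.posSemidef_iff_dotProduct_mulVec]
  constructor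
  · ext i j
    simp only [Matrix.conjTranspose_apply, Matrix.of_apply, Complex.star_def]
    rw [← integral_conj]
    refine integral_congr_ae (Eventually.of_forall fun x => ?_)
    have := (hpsd x).isHermitian.apply i j
    simpa using this
  · intro v
    have hI : ∀ i j, Integrable (fun x => star (v i) * (B x i j * v j)) μ := fun i j =>
      ((hint i j).mul_const (v j)).const_mul _
    have h1 : star v ⬝ᵥ ((Matrix.of fun i j => ∫ x, B x i j ∂μ) *ᵥ v)
        = ∫ x, star v ⬝ᵥ (B x *ᵥ v) ∂μ := by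
      simp only [dotProduct, Matrix.mulVec, Matrix.of_apply, Pi.star_apply, Finset.mul_sum]
      rw [integral_finsetSum _ fun i _ => integrable_finsetSum _ fun j _ => hI i j]
      refine Finset.sum_congr rfl fun i _ => ?_
      rw [integral_finsetSum _ fun j _ => hI i j]
      refine Finset.sum_congr rfl fun j _ => ?_
      rw [integral_const_mul, integral_mul_const]
    rw [h1]
    have h2 : ∀ x, star v ⬝ᵥ (B x *ᵥ v) = (((star v ⬝ᵥ (B x *ᵥ v)).re : ℝ) : ℂ) := by
      intro x
      have := (hpsd x).dotProduct_mulVec_nonneg v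
      exact Complex.ext (by simp) (by simpa using (Complex.le_def.1 this).2.symm)
    have h3 : ∫ x, star v ⬝ᵥ (B x *ᵥ v) ∂μ = ((∫ x, (star v ⬝ᵥ (B x *ᵥ v)).re ∂μ : ℝ) : ℂ) := by
      rw [← integral_complex_ofReal]
      exact integral_congr_ae (Eventually.of_forall fun x => h2 x)
    rw [h3]
    have h4 : 0 ≤ ∫ x, (star v ⬝ᵥ (B x *ᵥ v)).re ∂μ :=
      integral_nonneg fun x => (Complex.le_def.1 ((hpsd x).dotProduct_mulVec_nonneg v)).1
    exact_mod_cast h4

end Vale.Agent.P371
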